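import Vale.Agent.P003.BH

/-! P013: an abstract third order sieve. -/

namespace Vale.Agent.P013

open Finset
open Vale.Agent.P003

noncomputable section

theorem one_sub_sum_le (z : ℕ → ℝ) (A : Finset ℕ) (hz : ∀ p ∈ A, 0 ≤ z p ∧ z p ≤ 1) :
    1 - ∑ p ∈ A, z p ≤ ∏ p ∈ A, (1 - z p) := by
  induction A using Finset.induction_on with
  | empty => simp
  | insert a A ha ih =>
    rw [Finset.sum_insert ha, Finset.prod_insert ha]
    have h1 := ih (fun p hp => hz p (mem_insert_of_mem hp))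
    have h2 := hz a (mem_insert_self a A)
    have h3 : 0 ≤ ∑ p ∈ A, z p := Finset.sum_nonneg (fun p hp => (hz p (mem_insert_of_mem hp)).1)
    have h4 : (1 - z a) * (1 - ∑ p ∈ A, z p) ≤ (1 - z a) * ∏ p ∈ A, (1 - z p) :=
      mul_le_mul_of_nonneg_left h1 (by linarith)
    nlinarith [mul_nonneg h2.1 h3]

theorem pointwise (z : ℕ → ℝ) (S1 S2 : Finset ℕ) (h1 : ∀ p ∈ S1, 0 ≤ z p ∧ z p ≤ 1)
    (h2 : ∀ p ∈ S2, 0 ≤ z p ∧ z p ≤ 1) :
    Etr z 3 S1 - ∑ q ∈ S2, z q * Etr z 2 S1 ≤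
      (∏ p ∈ S1, (1 - z p)) * ∏ p ∈ S2, (1 - z p) := by
  have a3 : Etr z 3 S1 ≤ ∏ p ∈ S1, (1 - z p) := bonferroni_odd z 1 S1 h1
  have a2 : ∏ p ∈ S1, (1 - z p) ≤ Etr z 2 S1 := bonferroni_even z 1 S1 h1
  have hp : 0 ≤ ∏ p ∈ S1, (1 - z p) :=
    Finset.prod_nonneg (fun p hp => by linarith [(h1 p hp).2])
  have hs := one_sub_sum_le z S2 h2
  have hs0 : 0 ≤ ∑ q ∈ S2, z q := Finset.sum_nonneg (fun p hp => (h2 p hp).1)
  rw [← Finset.sum_mul]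
  have b1 : (∏ p ∈ S1, (1 - z p)) * (1 - ∑ p ∈ S2, z p) ≤
      (∏ p ∈ S1, (1 - z p)) * ∏ p ∈ S2, (1 - z p) := mul_le_mul_of_nonneg_left hs hp
  have b2 : (∑ p ∈ S2, z p) * ∏ p ∈ S1, (1 - z p) ≤ (∑ p ∈ S2, z p) * Etr z 2 S1 :=
    mul_le_mul_of_nonneg_left a2 hs0
  nlinarith

theorem card_eq_Etr (S : Finset ℕ) (n : ℕ) :
    ((S.powerset.filter (fun D => D.card ≤ n)).card : ℝ) = Etr (fun _ => -1) n S := by
  unfold Etr
  simp

theorem Etr_neg_one_le (S : Finset ℕ) (n : ℕ) :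
    Etr (fun _ => -1) n S ≤ ((S.card : ℝ) + 1) ^ n := by
  induction S using Finset.induction_on generalizing n with
  | empty => rw [Etr_empty]; simp
  | insert a S ha ih =>
    cases n with
    | zero => rw [Etr_zero]; simp
    | succ n =>
      rw [Etr_insert _ _ _ _ ha, Finset.card_insert_of_notMem ha]
      have h1 := ih (n + 1)
      have h2 := ih n
      have hs : (0 : ℝ) ≤ S.card := Nat.cast_nonneg _
      have h3 : ((S.card : ℝ) + 1) ^ n ≤ ((S.card : ℝ) + 1 + 1) ^ n :=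
        pow_le_pow_left₀ (by linarith) (by linarith) n
      push_cast
      have h4 : ((S.card : ℝ) + 1) ^ (n + 1) + ((S.card : ℝ) + 1) ^ n ≤
          ((S.card : ℝ) + 1 + 1) ^ (n + 1) := by
        rw [pow_succ, pow_succ]
        have : ((S.card : ℝ) + 1) ^ n * ((S.card : ℝ) + 1 + 1) ≤
            ((S.card : ℝ) + 1 + 1) ^ n * ((S.card : ℝ) + 1 + 1) :=
          mul_le_mul_of_nonneg_right h3 (by linarith)
        linarith
      linarith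

theorem etr_sum (N : ℕ) (w : ℕ → ℝ) (z : ℕ → ℕ → ℝ) (g : ℕ → ℝ) (X e R : ℝ) (S : Finset ℕ)
    (n : ℕ) (hX : 0 ≤ X) (he : 0 ≤ e) (hR : 0 ≤ R) (hg : ∀ p ∈ S, 0 ≤ g p)
    (H : ∀ D ⊆ S, |∑ x ∈ range N, w x * ∏ p ∈ D, z p x - X * ∏ p ∈ D, g p| ≤
      e * (X * ∏ p ∈ D, g p) + R) :
    |∑ x ∈ range N, w x * Etr (fun p => z p x) n S - X * Etr g n S| ≤
      e * X * Real.exp (∑ p ∈ S, g p) + R * ((S.card : ℝ) + 1) ^ n := by
  set F := S.powerset.filter (fun D => D.card ≤ n) with hF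
  have hFs : ∀ D ∈ F, D ⊆ S := fun D hD => Finset.mem_powerset.1 (Finset.mem_filter.1 hD).1
  have e1 : ∑ x ∈ range N, w x * Etr (fun p => z p x) n S =
      ∑ D ∈ F, (-1) ^ D.card * ∑ x ∈ range N, w x * ∏ p ∈ D, z p x := by
    unfold Etr
    simp only [Finset.mul_sum]
    rw [Finset.sum_comm]
    refine Finset.sum_congr rfl (fun D _ => Finset.sum_congr rfl (fun x _ => ?_))
    rw [Finset.prod_neg]
    ring
  have e2 : X * Etr g n S = ∑ D ∈ F, (-1) ^ D.card * (X * ∏ p ∈ D, g p) := by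
    unfold Etr
    rw [Finset.mul_sum]
    refine Finset.sum_congr rfl (fun D _ => ?_)
    rw [Finset.prod_neg]
    ring
  rw [e1, e2, ← Finset.sum_sub_distrib]
  refine (Finset.abs_sum_le_sum_abs _ _).trans ?_
  have h1 : ∀ D ∈ F, |(-1) ^ D.card * ∑ x ∈ range N, w x * ∏ p ∈ D, z p x -
      (-1) ^ D.card * (X * ∏ p ∈ D, g p)| ≤ e * (X * ∏ p ∈ D, g p) + R := by
    intro D hD
    rw [← mul_sub, abs_mul, abs_pow, abs_neg, abs_one, one_pow, one_mul]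
    exact H D (hFs D hD)
  refine (Finset.sum_le_sum h1).trans ?_
  rw [Finset.sum_add_distrib, ← Finset.mul_sum, ← Finset.mul_sum, Finset.sum_const, nsmul_eq_mul]
  have h2 : ∑ D ∈ F, ∏ p ∈ D, g p ≤ Real.exp (∑ p ∈ S, g p) := by
    calc ∑ D ∈ F, ∏ p ∈ D, g p ≤ ∑ D ∈ S.powerset, ∏ p ∈ D, g p := by
          apply Finset.sum_le_sum_of_subset_of_nonneg (Finset.filter_subset _ _)
          intro D hD _
          exact Finset.prod_nonneg (fun p hp => hg p (Finset.mem_powerset.1 hD hp))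
      _ = ∏ p ∈ S, (1 + g p) := (Finset.prod_one_add S).symm
      _ ≤ Real.exp (∑ p ∈ S, g p) := by
          rw [Real.exp_sum]
          refine Finset.prod_le_prod (fun p hp => by linarith [hg p hp]) (fun p _ => ?_)
          linarith [Real.add_one_le_exp (g p)]
  have h3 : (F.card : ℝ) ≤ ((S.card : ℝ) + 1) ^ n := by
    rw [hF, card_eq_Etr]
    exact Etr_neg_one_le S n
  have h4 : e * (X * ∑ D ∈ F, ∏ p ∈ D, g p) ≤ e * (X * Real.exp (∑ p ∈ S, g p)) :=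
    mul_le_mul_of_nonneg_left (mul_le_mul_of_nonneg_left h2 hX) he
  have h5 : (F.card : ℝ) * R ≤ ((S.card : ℝ) + 1) ^ n * R := mul_le_mul_of_nonneg_right h3 hR
  linarith

theorem sum_lower (N : ℕ) (w : ℕ → ℝ) (z : ℕ → ℕ → ℝ) (g : ℕ → ℝ) (X e R : ℝ)
    (S1 S2 : Finset ℕ) (hX : 0 ≤ X) (he : 0 ≤ e) (hR : 0 ≤ R) (hg1 : ∀ p ∈ S1, 0 ≤ g p)
    (hg2 : ∀ p ∈ S2, 0 ≤ g p)
    (H1 : ∀ D ⊆ S1, |∑ x ∈ range N, w x * ∏ p ∈ D, z p x - X * ∏ p ∈ D, g p| ≤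
      e * (X * ∏ p ∈ D, g p) + R)
    (H2 : ∀ q ∈ S2, ∀ D ⊆ S1,
      |∑ x ∈ range N, (w x * z q x) * ∏ p ∈ D, z p x - (X * g q) * ∏ p ∈ D, g p| ≤
      e * ((X * g q) * ∏ p ∈ D, g p) + R) :
    X * (Etr g 3 S1 - (∑ q ∈ S2, g q) * Etr g 2 S1) -
      e * X * Real.exp (∑ p ∈ S1, g p) * (1 + ∑ q ∈ S2, g q) -
      R * (((S1.card : ℝ) + 1) ^ 3 + S2.card * ((S1.card : ℝ) + 1) ^ 2) ≤
    ∑ x ∈ range N, w x * (Etr (fun p => z p x) 3 S1 -
      ∑ q ∈ S2, z q x * Etr (fun p => z p x) 2 S1) := by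
  have a1 := (abs_le.1 (etr_sum N w z g X e R S1 3 hX he hR hg1 H1)).1
  have a2 : ∀ q ∈ S2, ∑ x ∈ range N, (w x * z q x) * Etr (fun p => z p x) 2 S1 ≤
      (X * g q) * Etr g 2 S1 + (e * (X * g q) * Real.exp (∑ p ∈ S1, g p) +
        R * ((S1.card : ℝ) + 1) ^ 2) := by
    intro q hq
    have := (abs_le.1 (etr_sum N (fun x => w x * z q x) z g (X * g q) e R S1 2
      (mul_nonneg hX (hg2 q hq)) he hR hg1 (H2 q hq))).2
    linarith
  have a3 := Finset.sum_le_sum a2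
  have e1 : ∑ x ∈ range N, w x * (Etr (fun p => z p x) 3 S1 -
      ∑ q ∈ S2, z q x * Etr (fun p => z p x) 2 S1) =
      ∑ x ∈ range N, w x * Etr (fun p => z p x) 3 S1 -
      ∑ q ∈ S2, ∑ x ∈ range N, (w x * z q x) * Etr (fun p => z p x) 2 S1 := by
    rw [Finset.sum_comm, ← Finset.sum_sub_distrib]
    refine Finset.sum_congr rfl (fun x _ => ?_)
    rw [mul_sub, Finset.mul_sum]
    congr 1
    exact Finset.sum_congr rfl (fun q _ => by ring)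
  rw [e1]
  have e2 : ∑ q ∈ S2, ((X * g q) * Etr g 2 S1 + (e * (X * g q) * Real.exp (∑ p ∈ S1, g p) +
        R * ((S1.card : ℝ) + 1) ^ 2)) =
      X * ((∑ q ∈ S2, g q) * Etr g 2 S1) + e * X * Real.exp (∑ p ∈ S1, g p) * (∑ q ∈ S2, g q) +
        R * (S2.card * ((S1.card : ℝ) + 1) ^ 2) := by
    have h0 : ∀ q ∈ S2, ((X * g q) * Etr g 2 S1 + (e * (X * g q) *
        Real.exp (∑ p ∈ S1, g p) + R * ((S1.card : ℝ) + 1) ^ 2)) =
        g q * (X * Etr g 2 S1 + e * X * Real.exp (∑ p ∈ S1, g p)) +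
          R * ((S1.card : ℝ) + 1) ^ 2 := fun q _ => by ring
    rw [Finset.sum_congr rfl h0, Finset.sum_add_distrib, ← Finset.sum_mul, Finset.sum_const,
      nsmul_eq_mul]
    ring
  rw [e2] at a3
  linarith

theorem e1_eq (g : ℕ → ℝ) (S : Finset ℕ) : Etr g 1 S = 1 - ∑ p ∈ S, g p := by
  induction S using Finset.induction_on with
  | empty => rw [Etr_empty]; simp
  | insert a S ha ih =>
    rw [Etr_insert _ _ _ _ ha, ih, Finset.sum_insert ha, Etr_zero]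
    ring

theorem e2_eq (g : ℕ → ℝ) (S : Finset ℕ) :
    Etr g 2 S = 1 - ∑ p ∈ S, g p + ((∑ p ∈ S, g p) ^ 2 - ∑ p ∈ S, g p ^ 2) / 2 := by
  induction S using Finset.induction_on with
  | empty => rw [Etr_empty]; simp
  | insert a S ha ih =>
    rw [Etr_insert _ _ _ _ ha, ih, Finset.sum_insert ha, Finset.sum_insert ha, e1_eq]
    ring

/-- the main term is positive. -/
theorem main_pos (g : ℕ → ℝ) (S : Finset ℕ) (t : ℝ) (hg : ∀ p ∈ S, 0 ≤ g p)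
    (h1 : ∑ p ∈ S, g p ≤ 23 / 25) (h2 : ∑ p ∈ S, g p ^ 2 ≤ 1 / 1000) (_ht0 : 0 ≤ t)
    (ht : t ≤ 18 / 25) : 1 / 100 ≤ Etr g 3 S - t * Etr g 2 S := by
  have a := Etr_sub g 1 S
  have b := esymm_le g 3 S hg
  have c := e2_eq g S
  simp only [mul_one] at a
  norm_num at a
  set σ := ∑ p ∈ S, g p with hσ
  have hσ0 : 0 ≤ σ := Finset.sum_nonneg hg
  set s := ∑ p ∈ S, g p ^ 2 with hs
  have hf : ((3 : ℕ).factorial : ℝ) = 6 := by norm_num [Nat.factorial]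
  rw [hf] at b
  have h3 : Etr g 3 S = Etr g 2 S - ∑ D ∈ S.powersetCard 3, ∏ p ∈ D, g p := by linarith
  have h4 : 1 - σ + σ ^ 2 / 2 - 1 / 2000 ≤ Etr g 2 S := by rw [c]; linarith
  have h5 : 0 ≤ 1 - σ + σ ^ 2 / 2 - 1 / 2000 := by nlinarith [sq_nonneg (1 - σ)]
  have h6 : (7 / 25) * (1 - σ + σ ^ 2 / 2 - 1 / 2000) ≤ (1 - t) * Etr g 2 S := by
    have : (7 / 25) * (1 - σ + σ ^ 2 / 2 - 1 / 2000) ≤
        (1 - t) * (1 - σ + σ ^ 2 / 2 - 1 / 2000) :=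
      mul_le_mul_of_nonneg_right (by linarith) h5
    refine this.trans (mul_le_mul_of_nonneg_left h4 (by linarith))
  have h7 : (23 / 25 - σ) * ((7 / 25) * (1 - (σ + 23 / 25) / 2) +
      (σ ^ 2 + σ * (23 / 25) + (23 / 25) ^ 2) / 6) ≥ 0 := by
    apply mul_nonneg (by linarith)
    have : 0 ≤ 1 - (σ + 23 / 25) / 2 := by linarith
    positivity
  rw [h3]
  nlinarith

end

end Vale.Agent.P013
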