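import Vale.Agent.P013.Defs
import Vale.Agent.P013.Abs
import Vale.Agent.P003.FL
import Vale.Agent.P031.Mert

/-! P013: assembly. -/

namespace Vale.Agent.P013

open Finset
open Vale.Agent.P003

noncomputable section

def V (y : ℕ) : ℝ := ∏ p ∈ Nat.primesLE y, (1 - 1 / (p : ℝ))

/-- the data of the sieve estimate for multiples -/
def FLM (e : ℝ) (b : ℕ) : Prop := ∀ y : ℕ, 1 ≤ y → ∀ N h d : ℕ, 0 < d →
  (∀ p ∈ d.primeFactors, y < p) →
    |∑ x ∈ Finset.range N, rho y (x + h) * (if d ∣ x + h then 1 else 0) - (N : ℝ) / d * V y| ≤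
      e * ((N:ℝ)/d * V y) + (((y:ℝ) + 3) * ((y:ℝ)^(4*b+6))^2 + 2 + e)

/-- indicator of divisibility -/
def zd (h p x : ℕ) : ℝ := if p ∣ x + h then 1 else 0

theorem zd_bounds (h p x : ℕ) : 0 ≤ zd h p x ∧ zd h p x ≤ 1 := by
  unfold zd; split_ifs <;> norm_num

theorem prod_zd (h x : ℕ) (D : Finset ℕ) (hD : ∀ p ∈ D, p.Prime) :
    ∏ p ∈ D, zd h p x = if (∏ p ∈ D, p) ∣ x + h then 1 else 0 := by
  unfold zd
  rw [Finset.prod_ite_zero]
  simp only [Finset.prod_const_one]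
  congr 1
  apply propext
  constructor
  · intro H
    exact Finset.prod_primes_dvd _ (fun p hp => (hD p hp).prime) H
  · intro H p hp
    exact (Finset.dvd_prod_of_mem _ hp).trans H

theorem V_nonneg (y : ℕ) : 0 ≤ V y := by
  unfold V
  refine Finset.prod_nonneg (fun p hp => ?_)
  have := ((Nat.mem_primesLE.1 hp).2).one_lt
  have h1 : (1 : ℝ) ≤ p := by exact_mod_cast this.le
  have : 1 / (p : ℝ) ≤ 1 := by rw [div_le_one (by linarith)]; exact h1
  linarith

/-- the sieve: positivity gives a good integer. -/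
theorem exists_good (e : ℝ) (he : 0 < e) (b : ℕ) (hF : FLM e b) (y : ℕ) (hy : 1 ≤ y) (N h n : ℕ)
    (_hn : 0 < n) (S1 S2 : Finset ℕ) (h1 : ∀ p ∈ S1, p.Prime ∧ y < p)
    (h2 : ∀ p ∈ S2, p.Prime ∧ y < p) (hdis : Disjoint S1 S2)
    (hcov : ∀ p, p.Prime → p ∣ n → p ≤ y ∨ p ∈ S1 ∨ p ∈ S2)
    (hpos : 0 < ((N : ℝ) * V y) * (Etr (fun p => 1 / (p : ℝ)) 3 S1 - (∑ q ∈ S2, 1 / (q : ℝ)) *
        Etr (fun p => 1 / (p : ℝ)) 2 S1) -
      e * ((N : ℝ) * V y) * Real.exp (∑ p ∈ S1, 1 / (p : ℝ)) * (1 + ∑ q ∈ S2, 1 / (q : ℝ)) -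
      (((y:ℝ) + 3) * ((y:ℝ)^(4*b+6))^2 + 2 + e) *
        (((S1.card : ℝ) + 1) ^ 3 + S2.card * ((S1.card : ℝ) + 1) ^ 2)) :
    ∃ i : ℕ, i < N ∧ Nat.Coprime (h + i) n := by
  have hg : ∀ p : ℕ, 0 ≤ 1 / (p : ℝ) := fun p => by positivity
  have key := sum_lower N (fun x => rho y (x + h)) (fun p x => zd h p x) (fun p => 1 / (p : ℝ))
    ((N : ℝ) * V y) e (((y:ℝ) + 3) * ((y:ℝ)^(4*b+6))^2 + 2 + e) S1 S2
    (mul_nonneg (Nat.cast_nonneg _) (V_nonneg y)) he.le (by positivity)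
    (fun p _ => hg p) (fun p _ => hg p) ?_ ?_
  · have hsum := lt_of_lt_of_le hpos key
    obtain ⟨x, hx, hxpos⟩ : ∃ x ∈ range N, 0 < rho y (x + h) *
        (Etr (fun p => zd h p x) 3 S1 - ∑ q ∈ S2, zd h q x * Etr (fun p => zd h p x) 2 S1) := by
      by_contra hcon
      push Not at hcon
      exact absurd (Finset.sum_nonpos hcon) (not_le.2 hsum)
    refine ⟨x, Finset.mem_range.1 hx, ?_⟩
    have hp := pointwise (fun p => zd h p x) S1 S2 (fun p _ => zd_bounds h p x)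
      (fun p _ => zd_bounds h p x)
    have hrho : 0 ≤ rho y (x + h) := by unfold rho; split_ifs <;> norm_num
    have hprod : 0 < rho y (x + h) *
        ((∏ p ∈ S1, (1 - zd h p x)) * ∏ p ∈ S2, (1 - zd h p x)) :=
      lt_of_lt_of_le hxpos (mul_le_mul_of_nonneg_left hp hrho)
    have hne := hprod.ne'
    have hr : Rough y (x + h) := by
      by_contra hnr
      apply hne
      unfold rho
      rw [if_neg hnr, zero_mul]
    have hS : ∀ p ∈ S1 ∪ S2, ¬ p ∣ x + h := by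
      intro p hp hdvd
      apply hne
      have : zd h p x = 1 := by unfold zd; rw [if_pos hdvd]
      rcases Finset.mem_union.1 hp with hp | hp
      · rw [Finset.prod_eq_zero (i := p) hp (by rw [this, sub_self])]
        ring
      · rw [Finset.prod_eq_zero (i := p) (s := S2) hp (by rw [this, sub_self])]
        ring
    rw [Nat.Coprime, ← Nat.Coprime, Nat.coprime_comm]
    apply Nat.coprime_of_dvd
    intro p hpp hpn hpx
    rw [Nat.add_comm] at hpx
    rcases hcov p hpp hpn with h3 | h3 | h3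
    · exact hr p (Nat.mem_primesLE.2 ⟨h3, hpp⟩) hpx
    · exact hS p (Finset.mem_union_left _ h3) hpx
    · exact hS p (Finset.mem_union_right _ h3) hpx
  · intro D hD
    have hDp : ∀ p ∈ D, p.Prime := fun p hp => (h1 p (hD hp)).1
    have hf := hF y hy N h (∏ p ∈ D, p) (Finset.prod_pos (fun p hp => (hDp p hp).pos)) ?_
    · have e1 : ∀ x, ∏ p ∈ D, zd h p x = if (∏ p ∈ D, p) ∣ x + h then 1 else 0 :=
        fun x => prod_zd h x D hDp
      simp only [e1]
      have e2 : ((∏ p ∈ D, p : ℕ) : ℝ) = ∏ p ∈ D, (p : ℝ) := by push_cast; rfl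
      have e3 : (N : ℝ) / ((∏ p ∈ D, p : ℕ) : ℝ) * V y =
          (N : ℝ) * V y * ∏ p ∈ D, (1 / (p : ℝ)) := by
        rw [e2, Finset.prod_div_distrib, Finset.prod_const_one]
        ring
      rw [e3] at hf
      exact hf
    · intro p hp
      rw [Nat.mem_primeFactors] at hp
      obtain ⟨q, hq, hpq⟩ := (hp.1.prime.dvd_finsetProd_iff _).1 hp.2.1
      rw [(Nat.prime_dvd_prime_iff_eq hp.1 (hDp q hq)).1 hpq]
      exact (h1 q (hD hq)).2
  · intro q hq D hD
    have hqD : q ∉ D := fun hqD => (Finset.disjoint_left.1 hdis (hD hqD)) hq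
    have hDp : ∀ p ∈ insert q D, p.Prime := by
      intro p hp
      rcases Finset.mem_insert.1 hp with rfl | hp
      · exact (h2 p hq).1
      · exact (h1 p (hD hp)).1
    have hDy : ∀ p ∈ insert q D, y < p := by
      intro p hp
      rcases Finset.mem_insert.1 hp with rfl | hp
      · exact (h2 p hq).2
      · exact (h1 p (hD hp)).2
    have hf := hF y hy N h (∏ p ∈ insert q D, p)
      (Finset.prod_pos (fun p hp => (hDp p hp).pos)) ?_
    · have e1 : ∀ x, zd h q x * ∏ p ∈ D, zd h p x =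
          if (∏ p ∈ insert q D, p) ∣ x + h then 1 else 0 := by
        intro x
        rw [← prod_zd h x _ hDp, Finset.prod_insert hqD]
      simp only [mul_assoc, e1]
      have e2 : ((∏ p ∈ insert q D, p : ℕ) : ℝ) = (q : ℝ) * ∏ p ∈ D, (p : ℝ) := by
        rw [Finset.prod_insert hqD]; push_cast; rfl
      have e3 : (N : ℝ) / ((∏ p ∈ insert q D, p : ℕ) : ℝ) * V y =
          (N : ℝ) * (V y * (1 / (q : ℝ) * ∏ p ∈ D, (1 / (p : ℝ)))) := by
        rw [e2, Finset.prod_div_distrib, Finset.prod_const_one]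
        by_cases hq0 : (q : ℝ) = 0
        · rw [hq0]; simp
        · have : ∏ p ∈ D, (p : ℝ) ≠ 0 := Finset.prod_ne_zero_iff.2 (fun p hp => by
            exact_mod_cast (h1 p (hD hp)).1.pos.ne')
          field_simp
      rw [e3] at hf
      exact hf
    · intro p hp
      rw [Nat.mem_primeFactors] at hp
      obtain ⟨r, hr, hpr⟩ := (hp.1.prime.dvd_finsetProd_iff _).1 hp.2.1
      rw [(Nat.prime_dvd_prime_iff_eq hp.1 (hDp r hr)).1 hpr]
      exact hDy r hr

end

end Vale.Agent.P013
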