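import Vale.Agent.P013.Sieve

/-!
# P013: Brun-Hooley bounds for an arbitrary set of small primes
-/

namespace Vale.Agent.P013.MP

open Finset Filter
open Vale.Agent.P003 Vale.Agent.P003.FLaux

noncomputable section

/-- the main density -/
def Vs (S : Finset ℕ) (y : ℕ) : ℝ := ∏ p ∈ Nat.primesLE y, (1 - g S p)

theorem upper_sum (S : Finset ℕ) (a : ℤ) (L y q b : ℕ) (hy : 1 ≤ y) (hq : 0 < q)
    (hqy : ∀ p ∈ Nat.primesLE y, Nat.Coprime q p) :
    ∑ x ∈ (Ico a (a + L)).filter (fun x => (q : ℤ) ∣ x),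
      ∏ p ∈ Nat.primesLE y, (1 - zi S x p) ≤
      (L / q : ℝ) * ∏ i ∈ range (nb y), EE y b (g S) i + (y : ℝ) ^ (4 * b + 6) := by
  have hM : (0 : ℝ) ≤ (y : ℝ) ^ (4 * b + 6) := by positivity
  have h := comb S a L y q hq hqy (ww y (cU b)) _ hM
    (fun D _ => abs_ww_le y _ (cU_abs b) D)
    (fun D hD h => prod_le_of_card y b hy D hD (ww_ne_zero y b _ (cU_ne b) D h))
  have e1 : ∀ x : ℤ, ∑ D ∈ (Nat.primesLE y).powerset, ww y (cU b) D * ∏ p ∈ D, zi S x p =
      ∏ i ∈ range (nb y), EE y b (zi S x) i := fun x => sum_wU y b (zi S x)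
  have e2 : ∑ D ∈ (Nat.primesLE y).powerset, ww y (cU b) D * ∏ p ∈ D, g S p =
      ∏ i ∈ range (nb y), EE y b (g S) i := sum_wU y b (g S)
  simp only [e1, e2] at h
  rw [abs_le] at h
  have h1 : ∑ x ∈ (Ico a (a + L)).filter (fun x => (q : ℤ) ∣ x),
      ∏ p ∈ Nat.primesLE y, (1 - zi S x p) ≤
      ∑ x ∈ (Ico a (a + L)).filter (fun x => (q : ℤ) ∣ x),
        ∏ i ∈ range (nb y), EE y b (zi S x) i :=
    sum_le_sum fun x _ => upper_z y b _ fun p _ => zi_bounds S x p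
  linarith [h.2]

theorem lower_sum (S : Finset ℕ) (a : ℤ) (L y b : ℕ) (hy : 1 ≤ y) :
    (L : ℝ) * (∏ i ∈ range (nb y), EE y b (g S) i -
      ∑ l ∈ range (nb y), es y b (g S) l * ∏ i ∈ (range (nb y)).erase l, EE y b (g S) i) -
      ((nb y : ℝ) + 1) * (y : ℝ) ^ (4 * b + 6) ≤
    ∑ x ∈ Ico a (a + L), ∏ p ∈ Nat.primesLE y, (1 - zi S x p) := by
  set M : ℝ := (y : ℝ) ^ (4 * b + 6) with hMdef
  have hM : 0 ≤ M := by positivity
  have hI : (Ico a (a + L)).filter (fun x => ((1 : ℕ) : ℤ) ∣ x) = Ico a (a + L) := by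
    rw [filter_true_of_mem]
    intro x _
    rw [Nat.cast_one]
    exact one_dvd x
  have hc1 : ∀ p ∈ Nat.primesLE y, Nat.Coprime 1 p := fun p _ => Nat.coprime_one_left p
  have hU := comb S a L y 1 one_pos hc1 (ww y (cU b)) M hM
    (fun D _ => abs_ww_le y _ (cU_abs b) D)
    (fun D hD h => prod_le_of_card y b hy D hD (ww_ne_zero y b _ (cU_ne b) D h))
  have hL : ∀ l, |_| ≤ _ := fun l => comb S a L y 1 one_pos hc1 (ww y (cL b l)) M hM
    (fun D _ => abs_ww_le y _ (cL_abs b l) D)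
    (fun D hD h => prod_le_of_card y b hy D hD (ww_ne_zero y b _ (cL_ne b l) D h))
  have e1 : ∀ x : ℤ, ∑ D ∈ (Nat.primesLE y).powerset, ww y (cU b) D * ∏ p ∈ D, zi S x p =
      ∏ i ∈ range (nb y), EE y b (zi S x) i := fun x => sum_wU y b (zi S x)
  have e2 : ∑ D ∈ (Nat.primesLE y).powerset, ww y (cU b) D * ∏ p ∈ D, g S p =
      ∏ i ∈ range (nb y), EE y b (g S) i := sum_wU y b (g S)
  simp only [e1, e2] at hU
  rw [hI, Nat.cast_one, div_one, abs_le] at hU
  have h1 : ∑ x ∈ Ico a (a + L), (∏ i ∈ range (nb y), EE y b (zi S x) i -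
      ∑ l ∈ range (nb y), es y b (zi S x) l * ∏ i ∈ (range (nb y)).erase l, EE y b (zi S x) i) ≤
      ∑ x ∈ Ico a (a + L), ∏ p ∈ Nat.primesLE y, (1 - zi S x p) :=
    sum_le_sum fun x _ => lower_z y b _ fun p _ => zi_bounds S x p
  rw [sum_sub_distrib] at h1
  have h3 : ∑ x ∈ Ico a (a + L), ∑ l ∈ range (nb y), es y b (zi S x) l *
      ∏ i ∈ (range (nb y)).erase l, EE y b (zi S x) i ≤
      ∑ l ∈ range (nb y), ((L : ℝ) * (es y b (g S) l *
        ∏ i ∈ (range (nb y)).erase l, EE y b (g S) i) + M) := by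
    rw [sum_comm]
    refine sum_le_sum fun l hl => ?_
    have hl' := mem_range.1 hl
    have hc := hL l
    have e3 : ∀ x : ℤ, ∑ D ∈ (Nat.primesLE y).powerset, ww y (cL b l) D * ∏ p ∈ D, zi S x p =
        es y b (zi S x) l * ∏ i ∈ (range (nb y)).erase l, EE y b (zi S x) i :=
      fun x => sum_wL y b (zi S x) l hl'
    have e4 : ∑ D ∈ (Nat.primesLE y).powerset, ww y (cL b l) D * ∏ p ∈ D, g S p =
        es y b (g S) l * ∏ i ∈ (range (nb y)).erase l, EE y b (g S) i :=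
      sum_wL y b (g S) l hl'
    simp only [e3, e4] at hc
    rw [hI, Nat.cast_one, div_one, abs_le] at hc
    linarith [hc.2]
  rw [sum_add_distrib, sum_const, card_range, nsmul_eq_mul, ← mul_sum] at h3
  have h4 := hU.1
  nlinarith [h1, h3, h4]

/-- the main terms are close to the density, uniformly -/
theorem main_g (Δ : ℝ) (hΔ : 0 < Δ) : ∃ b : ℕ, ∀ (S : Finset ℕ) (y : ℕ),
    ∏ i ∈ range (nb y), EE y b (g S) i ≤ Vs S y * Real.exp Δ ∧
    Vs S y ≤ ∏ i ∈ range (nb y), EE y b (g S) i ∧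
    ∑ l ∈ range (nb y), es y b (g S) l * ∏ i ∈ (range (nb y)).erase l, EE y b (g S) i ≤
      Vs S y * (Δ * Real.exp Δ) := by
  obtain ⟨β, hβ1, hβ⟩ := exists_block_bound
  have hβ0 : 0 ≤ β := by linarith
  have hc : (0 : ℝ) < Real.exp (-(2 * β)) := Real.exp_pos _
  have h5 := (FloorSemiring.tendsto_pow_div_factorial_atTop β).comp
    (tendsto_atTop_mono (fun b : ℕ => (by simp only [id]; omega : id b ≤ 2 * b + 1)) tendsto_id)
  have h6 := (h5.mul_const (Real.exp β)).mul_const (Real.exp (-(2 * β)))⁻¹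
  rw [zero_mul, zero_mul] at h6
  obtain ⟨b, hb⟩ := (h6.eventually (gt_mem_nhds hΔ)).exists
  refine ⟨b, fun S y => ?_⟩
  have hz : ∀ p ∈ Nat.primesLE y, 0 ≤ g S p ∧ g S p ≤ 1 := g_bounds S y
  have hblk := blk_sum_inv β hβ1 hβ y
  have hmem : ∀ i, ∀ p ∈ blk y i, p ∈ Nat.primesLE y := fun i p hp => (mem_filter.1 hp).1
  have hv : ∀ i, Real.exp (-(2 * β)) ≤ ∏ p ∈ blk y i, (1 - g S p) := by
    intro i
    calc Real.exp (-(2 * β)) ≤ Real.exp (∑ p ∈ blk y i, -(2 * g S p)) := by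
          apply Real.exp_le_exp.2
          rw [sum_neg_distrib, ← mul_sum, neg_le_neg_iff]
          refine mul_le_mul_of_nonneg_left ?_ (by norm_num)
          exact (sum_le_sum fun p _ => g_le S p).trans (hblk i)
      _ = ∏ p ∈ blk y i, Real.exp (-(2 * g S p)) := Real.exp_sum _ _
      _ ≤ ∏ p ∈ blk y i, (1 - g S p) := by
          refine prod_le_prod (fun p _ => (Real.exp_pos _).le) fun p hp => ?_
          exact one_sub_ge_exp _ (g_nonneg S p) (g_le_half S y p (hmem i p hp))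
  have hes : ∀ i, es y b (g S) i ≤ β ^ (2 * (b + i) + 1) / ((2 * (b + i) + 1).factorial : ℝ) := by
    intro i
    have h0 : ∀ p ∈ blk y i, 0 ≤ g S p := fun p _ => g_nonneg S p
    unfold es
    refine (esymm_le (g S) (2 * (b + i) + 1) (blk y i) h0).trans ?_
    apply div_le_div_of_nonneg_right _ (by positivity)
    apply pow_le_pow_left₀ (Finset.sum_nonneg h0)
    exact (sum_le_sum fun p _ => g_le S p).trans (hblk i)
  have hsum : ∑ i ∈ range (nb y), (β ^ (2 * (b + i) + 1) /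
      ((2 * (b + i) + 1).factorial : ℝ)) / ∏ p ∈ blk y i, (1 - g S p) ≤ Δ := by
    calc ∑ i ∈ range (nb y), (β ^ (2 * (b + i) + 1) /
          ((2 * (b + i) + 1).factorial : ℝ)) / ∏ p ∈ blk y i, (1 - g S p)
        ≤ ∑ i ∈ range (nb y), (β ^ (2 * (b + i) + 1) /
          ((2 * (b + i) + 1).factorial : ℝ)) / Real.exp (-(2 * β)) := by
          refine Finset.sum_le_sum (fun i _ => ?_)
          exact div_le_div_of_nonneg_left (by positivity) hc (hv i)
      _ = (∑ i ∈ range (nb y), (β ^ (2 * (b + i) + 1) /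
          ((2 * (b + i) + 1).factorial : ℝ))) / Real.exp (-(2 * β)) := by rw [Finset.sum_div]
      _ ≤ (β ^ (2 * b + 1) / ((2 * b + 1).factorial : ℝ) * Real.exp β) / Real.exp (-(2 * β)) :=
          div_le_div_of_nonneg_right (tail_sum _ hβ0 b (nb y)) hc.le
      _ ≤ Δ := by
          rw [div_eq_mul_inv]
          exact hb.le
  have hmain := main_abstract (nb y) (fun i => ∏ p ∈ blk y i, (1 - g S p))
    (fun i => EE y b (g S) i) (fun i => es y b (g S) i)
    (fun i => β ^ (2 * (b + i) + 1) / ((2 * (b + i) + 1).factorial : ℝ))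
    (fun i _ => lt_of_lt_of_le hc (hv i))
    (fun i _ => ⟨EE_ge y b _ hz i, by
      have h1 := EE_sub_le y b _ hz i
      have h2 := hes i
      linarith⟩)
    (fun i _ => hes i) (fun i _ => by positivity) Δ hsum
  rw [← prod_blocks y (fun p => 1 - g S p)] at hmain
  exact ⟨hmain.1, upper_z y b _ hz, hmain.2⟩

end

end Vale.Agent.P013.MP
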