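import Mathlib

/-! P013: Jacobsthal's function. -/

namespace Vale.Agent.P013

/-- every set of `m` consecutive integers contains an integer coprime to `n`. -/
def Good (n m : ℕ) : Prop := ∀ a : ℤ, ∃ i : ℕ, i < m ∧ IsCoprime (a + (i : ℤ)) (n : ℤ)

/-- Jacobsthal's function: the least positive `m` such that every set of `m` consecutive integers
contains an integer coprime to `n`. -/
noncomputable def jac (n : ℕ) : ℕ := sInf {m : ℕ | 0 < m ∧ Good n m}

theorem jac_le {n m : ℕ} (hm : 0 < m) (h : Good n m) : jac n ≤ m := Nat.sInf_le ⟨hm, h⟩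

/-- it is enough to look at intervals that start at a natural number. -/
theorem good_of_nat {n m : ℕ} (hn : 0 < n)
    (h : ∀ a : ℕ, ∃ i : ℕ, i < m ∧ Nat.Coprime (a + i) n) : Good n m := by
  intro a
  obtain ⟨i, hi, hc⟩ := h (a % (n : ℤ)).toNat
  refine ⟨i, hi, ?_⟩
  have hn' : (n : ℤ) ≠ 0 := by exact_mod_cast hn.ne'
  have h1 : (((a % (n : ℤ)).toNat : ℕ) : ℤ) = a % (n : ℤ) :=
    Int.toNat_of_nonneg (Int.emod_nonneg a hn')
  have h2 : IsCoprime ((((a % (n : ℤ)).toNat + i : ℕ)) : ℤ) (n : ℤ) :=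
    Nat.isCoprime_iff_coprime.2 hc
  rw [Nat.cast_add, h1] at h2
  have h3 : a + (i : ℤ) = (a % (n : ℤ) + (i : ℤ)) + (n : ℤ) * (a / (n : ℤ)) := by
    have := Int.emod_add_mul_ediv a (n : ℤ)
    linarith
  rw [h3]
  exact (IsCoprime.add_mul_left_left_iff (z := a / (n : ℤ))).2 h2

end Vale.Agent.P013
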