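import Vale.Agent.P013.Asm
import Vale.Agent.P013.Bounds

/-!
# P013: the row FLM
-/

namespace Vale.Agent.P013

open Finset
open Vale.Agent.P003 Vale.Agent.P003.FLaux Vale.Agent.P013.MP

noncomputable section

theorem lower_sum_q (S : Finset ℕ) (a : ℤ) (L y q b : ℕ) (hy : 1 ≤ y) (hq : 0 < q)
    (hqy : ∀ p ∈ Nat.primesLE y, Nat.Coprime q p) :
    (L / q : ℝ) * (∏ i ∈ range (nb y), EE y b (g S) i -
      ∑ l ∈ range (nb y), es y b (g S) l * ∏ i ∈ (range (nb y)).erase l, EE y b (g S) i) -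
      ((nb y : ℝ) + 1) * (y : ℝ) ^ (4 * b + 6) ≤
    ∑ x ∈ (Ico a (a + L)).filter (fun x => (q : ℤ) ∣ x),
      ∏ p ∈ Nat.primesLE y, (1 - zi S x p) := by
  set M : ℝ := (y : ℝ) ^ (4 * b + 6) with hMdef
  have hM : 0 ≤ M := by positivity
  have hU := comb S a L y q hq hqy (ww y (cU b)) M hM
    (fun D _ => abs_ww_le y _ (cU_abs b) D)
    (fun D hD h => prod_le_of_card y b hy D hD (ww_ne_zero y b _ (cU_ne b) D h))
  have hL : ∀ l, |_| ≤ _ := fun l => comb S a L y q hq hqy (ww y (cL b l)) M hM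
    (fun D _ => abs_ww_le y _ (cL_abs b l) D)
    (fun D hD h => prod_le_of_card y b hy D hD (ww_ne_zero y b _ (cL_ne b l) D h))
  have e1 : ∀ x : ℤ, ∑ D ∈ (Nat.primesLE y).powerset, ww y (cU b) D * ∏ p ∈ D, zi S x p =
      ∏ i ∈ range (nb y), EE y b (zi S x) i := fun x => sum_wU y b (zi S x)
  have e2 : ∑ D ∈ (Nat.primesLE y).powerset, ww y (cU b) D * ∏ p ∈ D, g S p =
      ∏ i ∈ range (nb y), EE y b (g S) i := sum_wU y b (g S)
  simp only [e1, e2] at hU
  rw [abs_le] at hU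
  have h1 : ∑ x ∈ (Ico a (a + L)).filter (fun x => (q : ℤ) ∣ x),
      (∏ i ∈ range (nb y), EE y b (zi S x) i -
      ∑ l ∈ range (nb y), es y b (zi S x) l * ∏ i ∈ (range (nb y)).erase l, EE y b (zi S x) i) ≤
      ∑ x ∈ (Ico a (a + L)).filter (fun x => (q : ℤ) ∣ x),
        ∏ p ∈ Nat.primesLE y, (1 - zi S x p) :=
    sum_le_sum fun x _ => lower_z y b _ fun p _ => zi_bounds S x p
  rw [sum_sub_distrib] at h1
  have h3 : ∑ x ∈ (Ico a (a + L)).filter (fun x => (q : ℤ) ∣ x),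
      ∑ l ∈ range (nb y), es y b (zi S x) l *
      ∏ i ∈ (range (nb y)).erase l, EE y b (zi S x) i ≤
      ∑ l ∈ range (nb y), ((L / q : ℝ) * (es y b (g S) l *
        ∏ i ∈ (range (nb y)).erase l, EE y b (g S) i) + M) := by
    rw [sum_comm]
    refine sum_le_sum fun l hl => ?_
    have hl' := mem_range.1 hl
    have hc := hL l
    have e3 : ∀ x : ℤ, ∑ D ∈ (Nat.primesLE y).powerset, ww y (cL b l) D * ∏ p ∈ D, zi S x p =
        es y b (zi S x) l * ∏ i ∈ (range (nb y)).erase l, EE y b (zi S x) i :=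
      fun x => sum_wL y b (zi S x) l hl'
    have e4 : ∑ D ∈ (Nat.primesLE y).powerset, ww y (cL b l) D * ∏ p ∈ D, g S p =
        es y b (g S) l * ∏ i ∈ (range (nb y)).erase l, EE y b (g S) i :=
      sum_wL y b (g S) l hl'
    simp only [e3, e4] at hc
    rw [abs_le] at hc
    linarith [hc.2]
  rw [sum_add_distrib, sum_const, card_range, nsmul_eq_mul, ← mul_sum] at h3
  have h4 := hU.1
  nlinarith [h1, h3, h4]

theorem sum_shift (N h : ℕ) (F : ℤ → ℝ) :
    ∑ x ∈ range N, F ((x + h : ℕ) : ℤ) = ∑ x ∈ Ico (h : ℤ) ((h : ℤ) + N), F x := by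
  refine sum_nbij (fun x : ℕ => ((x + h : ℕ) : ℤ)) ?_ ?_ ?_ ?_
  · intro x hx
    have := mem_range.1 hx
    rw [mem_Ico]
    push_cast
    constructor <;> omega
  · intro x _ x' _ hxx
    have h1 : ((x + h : ℕ) : ℤ) = ((x' + h : ℕ) : ℤ) := hxx
    have h2 : x + h = x' + h := by exact_mod_cast h1
    omega
  · intro z hz
    have hz' := mem_Ico.1 (mem_coe.1 hz)
    refine ⟨(z - h).toNat, ?_, ?_⟩
    · rw [mem_coe, mem_range]
      omega
    · show (((z - h).toNat + h : ℕ) : ℤ) = z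
      push_cast
      omega
  · intro x _
    rfl

theorem prod_zi_rho (y n : ℕ) :
    ∏ p ∈ Nat.primesLE y, (1 - zi (Nat.primesLE y) (n : ℤ) p) = rho y n := by
  unfold rho
  split_ifs with h
  · refine prod_eq_one fun p hp => ?_
    unfold zi
    rw [if_neg, sub_zero]
    rintro ⟨_, h2⟩
    exact h p hp (Int.natCast_dvd_natCast.1 h2)
  · unfold Rough at h
    push Not at h
    obtain ⟨p, hp, hd⟩ := h
    refine prod_eq_zero hp ?_
    unfold zi
    rw [if_pos ⟨hp, Int.natCast_dvd_natCast.2 hd⟩, sub_self]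

theorem Vs_eq_V (y : ℕ) : Vs (Nat.primesLE y) y = V y := by
  unfold Vs V
  refine prod_congr rfl fun p hp => ?_
  unfold g
  rw [if_pos hp]

theorem flm (e : ℝ) (he : 0 < e) : ∃ b : ℕ, FLM e b := by
  set Δ : ℝ := min e 1 / 4 with hΔd
  have hm0 : 0 < min e 1 := lt_min he one_pos
  have hm1 : min e 1 ≤ e := min_le_left _ _
  have hm2 : min e 1 ≤ 1 := min_le_right _ _
  have hΔ : 0 < Δ := by positivity
  obtain ⟨b, hb⟩ := main_g Δ hΔ
  refine ⟨b, ?_⟩
  intro y hy N h d hd hdp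
  have hcop : ∀ p ∈ Nat.primesLE y, Nat.Coprime d p := by
    intro p hp
    have hp' := Nat.mem_primesLE.1 hp
    rw [Nat.coprime_comm, hp'.2.coprime_iff_not_dvd]
    intro hpd
    have := hdp p (Nat.mem_primeFactors.2 ⟨hp'.2, hpd, hd.ne'⟩)
    omega
  obtain ⟨m1, m2, m3⟩ := hb (Nat.primesLE y) y
  have hup := upper_sum (Nat.primesLE y) h N y d b hy hd hcop
  have hlow := lower_sum_q (Nat.primesLE y) h N y d b hy hd hcop
  have hsum : ∑ x ∈ Finset.range N, rho y (x + h) * (if d ∣ x + h then 1 else 0) =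
      ∑ x ∈ (Ico (h : ℤ) ((h : ℤ) + N)).filter (fun x => (d : ℤ) ∣ x),
        ∏ p ∈ Nat.primesLE y, (1 - zi (Nat.primesLE y) x p) := by
    rw [sum_filter, ← sum_shift N h (fun x => if (d : ℤ) ∣ x then
      ∏ p ∈ Nat.primesLE y, (1 - zi (Nat.primesLE y) x p) else 0)]
    refine sum_congr rfl fun x _ => ?_
    rw [prod_zi_rho]
    by_cases hdx : d ∣ x + h
    · rw [if_pos hdx, if_pos (Int.natCast_dvd_natCast.2 hdx), mul_one]
    · rw [if_neg hdx, if_neg (fun hc => hdx (Int.natCast_dvd_natCast.1 hc)), mul_zero]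
  rw [hsum]
  rw [Vs_eq_V] at m1 m2 m3
  set E := ∏ i ∈ range (nb y), EE y b (g (Nat.primesLE y)) i with hE
  set R := ∑ l ∈ range (nb y), es y b (g (Nat.primesLE y)) l *
    ∏ i ∈ (range (nb y)).erase l, EE y b (g (Nat.primesLE y)) i with hR
  set Z := ∑ x ∈ (Ico (h : ℤ) ((h : ℤ) + N)).filter (fun x => (d : ℤ) ∣ x),
        ∏ p ∈ Nat.primesLE y, (1 - zi (Nat.primesLE y) x p) with hZ
  set M : ℝ := (y : ℝ) ^ (4 * b + 6) with hM
  have hy1 : (1 : ℝ) ≤ y := by exact_mod_cast hy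
  have hM1 : 1 ≤ M := one_le_pow₀ hy1
  set X := Real.exp Δ with hX
  have hX1 : X ≤ 1 + 2 * Δ := by
    have h1 := Real.exp_bound_div_one_sub_of_interval (x := Δ) hΔ.le (by linarith)
    refine h1.trans ?_
    rw [div_le_iff₀ (by linarith)]
    nlinarith
  have hX0 : 0 < X := Real.exp_pos _
  have hNd : (0 : ℝ) ≤ N / d := by positivity
  have hV0 : 0 ≤ V y := V_nonneg y
  have hNV : 0 ≤ (N : ℝ) / d * V y := mul_nonneg hNd hV0
  have hnb : (nb y : ℝ) ≤ y := by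
    have : nb y ≤ y := by
      unfold nb
      have : Nat.log 2 y < y := Nat.log_lt_self 2 (by omega)
      omega
    exact_mod_cast this
  have hM2 : M ≤ M ^ 2 := by nlinarith
  have herr : ((nb y : ℝ) + 1) * M ≤ ((y : ℝ) + 3) * M ^ 2 + 2 + e := by
    have h1 : ((nb y : ℝ) + 1) * M ≤ ((y : ℝ) + 3) * M ^ 2 := by
      apply mul_le_mul (by linarith) hM2 (by positivity) (by positivity)
    linarith
  have hM3 : M ≤ ((y : ℝ) + 3) * M ^ 2 + 2 + e := by
    have h1 : 1 * M ≤ ((nb y : ℝ) + 1) * M := by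
      apply mul_le_mul_of_nonneg_right _ (by linarith)
      have : (0 : ℝ) ≤ nb y := Nat.cast_nonneg _
      linarith
    linarith
  rw [abs_le]
  constructor
  · have h1 : (N / d : ℝ) * (E - R) ≥ (N / d : ℝ) * (V y - V y * (Δ * X)) :=
      mul_le_mul_of_nonneg_left (by linarith) hNd
    have h2 : Δ * X ≤ e := by nlinarith
    have h3 : ((N : ℝ) / d * V y) * (Δ * X) ≤ ((N : ℝ) / d * V y) * e :=
      mul_le_mul_of_nonneg_left h2 hNV
    nlinarith [hlow, h1, h3, herr]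
  · have h1 : (N / d : ℝ) * E ≤ (N / d : ℝ) * (V y * X) := mul_le_mul_of_nonneg_left m1 hNd
    have h2 : X - 1 ≤ e := by linarith
    have h3 : ((N : ℝ) / d * V y) * (X - 1) ≤ ((N : ℝ) / d * V y) * e :=
      mul_le_mul_of_nonneg_left h2 hNV
    nlinarith [hup, h1, h3, hM3]

theorem fl_mult (e : ℝ) (he : 0 < e) : ∃ b : ℕ, FLM e b := flm e he

end

end Vale.Agent.P013
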