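import Vale.Agent.P013.Small

/-! P013: the final estimates. -/

namespace Vale.Agent.P013

open Finset Filter
open Vale.Agent.P003

noncomputable section

/-- from large `ω(n)` to all `n > 1`. -/
theorem finish (P : ℕ → Prop) (a C : ℝ) (ha : 0 ≤ a) (hC : 0 < C)
    (h : ∀ᶠ k : ℕ in atTop, ∀ n : ℕ, 1 < n → n.primeFactors.card = k → P n →
      (jac n : ℝ) ≤ C * (k : ℝ) ^ a) :
    ∃ C' : ℝ, 0 < C' ∧ ∀ n : ℕ, 1 < n → P n →
      (jac n : ℝ) ≤ C' * (n.primeFactors.card : ℝ) ^ a := by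
  obtain ⟨k0, hk0⟩ := Filter.eventually_atTop.1 h
  obtain ⟨F, hF⟩ := jac_small
  set G : ℝ := ∑ k ∈ range k0, (F k : ℝ) with hG
  have hG0 : 0 ≤ G := Finset.sum_nonneg (fun _ _ => Nat.cast_nonneg _)
  refine ⟨C + G, by linarith, fun n hn hP => ?_⟩
  have hk1 : 1 ≤ n.primeFactors.card := by
    rw [Nat.one_le_iff_ne_zero, Finset.card_ne_zero]
    exact Nat.nonempty_primeFactors.2 hn
  have hk1' : (1 : ℝ) ≤ (n.primeFactors.card : ℝ) := by exact_mod_cast hk1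
  have hpow : 1 ≤ (n.primeFactors.card : ℝ) ^ a := Real.one_le_rpow hk1' ha
  rcases le_or_gt k0 n.primeFactors.card with hc | hc
  · have := hk0 _ hc n hn rfl hP
    nlinarith
  · have h1 : (jac n : ℝ) ≤ F n.primeFactors.card := by exact_mod_cast hF n hn.le
    have h2 : (F n.primeFactors.card : ℝ) ≤ G := by
      rw [hG]
      exact Finset.single_le_sum (f := fun k => (F k : ℝ)) (fun _ _ => Nat.cast_nonneg _)
        (Finset.mem_range.2 hc)
    nlinarith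

/-- tail of the reciprocal sum over at most `k` primes above `k^s`, `s > 1`, plus a window. -/
theorem tail_bound (a s c : ℝ) (ha : 0 < a) (has : a < s) (hs : 1 < s)
    (hc : Real.log (s / a) < c) :
    ∀ᶠ k : ℕ in atTop, ∀ n : ℕ, n.primeFactors.card = k →
      ∑ p ∈ n.primeFactors.filter (fun p => ⌊(k : ℝ) ^ a⌋₊ < p), 1 / (p : ℝ) ≤ c := by
  have h1 := mert_window a s ha has
  have h2 : Tendsto (fun k : ℕ => (k : ℝ) ^ (-(s - 1))) atTop (nhds 0) :=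
    (tendsto_rpow_neg_atTop (by linarith)).comp tendsto_natCast_atTop_atTop
  have h3 := h1.add h2
  rw [add_zero] at h3
  filter_upwards [h3.eventually_lt_const hc, eventually_ge_atTop 1] with k hk hk1 n hn
  have hk1' : (1 : ℝ) ≤ k := by exact_mod_cast hk1
  refine le_trans ?_ hk.le
  set T := n.primeFactors.filter (fun p => ⌊(k : ℝ) ^ a⌋₊ < p) with hT
  rw [← Finset.sum_filter_add_sum_filter_not T (fun p => p ≤ ⌊(k : ℝ) ^ s⌋₊)]
  refine add_le_add ?_ ?_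
  · refine Finset.sum_le_sum_of_subset_of_nonneg ?_ (fun p _ _ => by positivity)
    intro p hp
    rw [Finset.mem_filter, hT, Finset.mem_filter] at hp
    rw [Finset.mem_filter]
    exact ⟨Nat.mem_primesLE.2 ⟨hp.2, Nat.prime_of_mem_primeFactors hp.1.1⟩, hp.1.2⟩
  · calc ∑ p ∈ T.filter (fun p => ¬ p ≤ ⌊(k : ℝ) ^ s⌋₊), 1 / (p : ℝ)
        ≤ ∑ p ∈ T.filter (fun p => ¬ p ≤ ⌊(k : ℝ) ^ s⌋₊), 1 / (k : ℝ) ^ s := by
          refine Finset.sum_le_sum (fun p hp => ?_)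
          have h4 := (Finset.mem_filter.1 hp).2
          rw [not_le] at h4
          have h5 : (k : ℝ) ^ s < p := Nat.lt_of_floor_lt h4
          exact one_div_le_one_div_of_le (by positivity) h5.le
      _ = ((T.filter (fun p => ¬ p ≤ ⌊(k : ℝ) ^ s⌋₊)).card : ℝ) * (1 / (k : ℝ) ^ s) := by
          rw [Finset.sum_const, nsmul_eq_mul]
      _ ≤ (k : ℝ) * (1 / (k : ℝ) ^ s) := by
          apply mul_le_mul_of_nonneg_right _ (by positivity)
          have : (T.filter (fun p => ¬ p ≤ ⌊(k : ℝ) ^ s⌋₊)).card ≤ k := by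
            rw [← hn]
            exact (Finset.card_le_card (Finset.filter_subset _ _)).trans
              (Finset.card_le_card (Finset.filter_subset _ _))
          exact_mod_cast this
      _ = (k : ℝ) ^ (-(s - 1)) := by
          rw [neg_sub, Real.rpow_sub (by linarith), Real.rpow_one]
          ring

/-- size of the sieve error. -/
theorem err_bound (e : ℝ) (_he : 0 < e) (he1 : e ≤ 1) (b y : ℕ) (hy : 1 ≤ y) :
    ((y:ℝ) + 3) * ((y:ℝ)^(4*b+6))^2 + 2 + e ≤ 7 * (y : ℝ) ^ (8 * b + 13) := by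
  have hy' : (1 : ℝ) ≤ y := by exact_mod_cast hy
  have h1 : ((y:ℝ)^(4*b+6))^2 = (y : ℝ) ^ (8 * b + 12) := by
    rw [← pow_mul]; congr 1; ring
  have h2 : (y : ℝ) ^ (8 * b + 13) = (y : ℝ) ^ (8 * b + 12) * y := by
    rw [← pow_succ]
  have h3 : (1 : ℝ) ≤ (y : ℝ) ^ (8 * b + 12) := one_le_pow₀ hy'
  rw [h1, h2]
  nlinarith

theorem final_ineq (b y N k : ℕ) (d : ℝ) (hy1 : 1 ≤ y) (hyk : (y : ℝ) ≤ (k : ℝ) ^ d)
    (hk0 : (0 : ℝ) < k) (hd : d = 1 / (200 * (8 * (b : ℝ) + 14))) (σ1 : ℝ) (hσ1 : σ1 ≤ 23 / 25)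
    (σ2 : ℝ) (hσ20 : 0 ≤ σ2) (hσ2 : σ2 ≤ 18 / 25) (M cnt : ℝ) (hmain : 1 / 100 ≤ M)
    (hcount : cnt ≤ 12 * (k : ℝ) ^ (398 / 200 : ℝ)) (hcnt0 : 0 ≤ cnt)
    (hNlt : 16800 * (k : ℝ) ^ (399 / 200 : ℝ) < N) :
    0 < ((N : ℝ) * V y) * M - (1 / 2000) * ((N : ℝ) * V y) * Real.exp σ1 * (1 + σ2) -
      (((y:ℝ) + 3) * ((y:ℝ)^(4*b+6))^2 + 2 + (1 / 2000)) * cnt := by
  set X : ℝ := (N : ℝ) * V y with hX
  have hVge := V_ge y hy1
  have hy0 : (0 : ℝ) < y := by exact_mod_cast hy1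
  have hN0 : (0 : ℝ) < N := lt_of_le_of_lt (by positivity) hNlt
  have hX0 : 0 ≤ X := mul_nonneg hN0.le (V_nonneg y)
  have hexp : Real.exp σ1 ≤ 2.7182818286 := by
    refine (Real.exp_le_exp.2 (by linarith : σ1 ≤ 1)).trans ?_
    exact Real.exp_one_lt_d9.le
  have hexp0 : 0 < Real.exp σ1 := Real.exp_pos _
  have ha : (1 / 2000) * X * Real.exp σ1 * (1 + σ2) ≤ (1 / 2000) * X * (2.7182818286 * 2) := by
    rw [mul_assoc]
    apply mul_le_mul_of_nonneg_left _ (by positivity)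
    apply mul_le_mul hexp (by linarith) (by linarith) (by norm_num)
  have hb1 : X * (1 / 100) ≤ X * M := mul_le_mul_of_nonneg_left hmain hX0
  have herr := err_bound (1 / 2000) (by norm_num) (by norm_num) b y hy1
  have hR : (((y:ℝ) + 3) * ((y:ℝ)^(4*b+6))^2 + 2 + 1 / 2000) * cnt ≤
      (7 * (y : ℝ) ^ (8 * b + 13)) * (12 * (k : ℝ) ^ (398 / 200 : ℝ)) :=
    mul_le_mul herr hcount hcnt0 (by positivity)
  have hyp : (y : ℝ) ^ (8 * b + 14) ≤ (k : ℝ) ^ (1 / 200 : ℝ) := by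
    calc (y : ℝ) ^ (8 * b + 14) ≤ ((k : ℝ) ^ d) ^ (8 * b + 14) :=
          pow_le_pow_left₀ hy0.le hyk _
      _ = (k : ℝ) ^ (1 / 200 : ℝ) := by
          rw [← Real.rpow_natCast, ← Real.rpow_mul hk0.le]
          congr 1
          rw [hd]
          push_cast
          field_simp
  have hprod : (y : ℝ) * (y : ℝ) ^ (8 * b + 13) * (k : ℝ) ^ (398 / 200 : ℝ) ≤
      (k : ℝ) ^ (399 / 200 : ℝ) := by
    have h1 : (y : ℝ) * (y : ℝ) ^ (8 * b + 13) = (y : ℝ) ^ (8 * b + 14) := by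
      rw [mul_comm, ← pow_succ]
    have h2 : (k : ℝ) ^ (399 / 200 : ℝ) =
        (k : ℝ) ^ (1 / 200 : ℝ) * (k : ℝ) ^ (398 / 200 : ℝ) := by
      rw [← Real.rpow_add hk0]; norm_num
    rw [h1, h2]
    exact mul_le_mul_of_nonneg_right hyp (by positivity)
  have hXge : 16800 * (k : ℝ) ^ (399 / 200 : ℝ) < X * y := by
    have h1 : 1 ≤ V y * y := by
      rw [div_le_iff₀ hy0] at hVge
      exact hVge
    have h2 : (N : ℝ) * 1 ≤ N * (V y * y) := mul_le_mul_of_nonneg_left h1 hN0.le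
    have h3 : X * y = N * (V y * y) := by rw [hX]; ring
    rw [h3]
    linarith
  have hfin : 200 * ((7 * (y : ℝ) ^ (8 * b + 13)) * (12 * (k : ℝ) ^ (398 / 200 : ℝ))) < X := by
    have h1 : (200 * ((7 * (y : ℝ) ^ (8 * b + 13)) * (12 * (k : ℝ) ^ (398 / 200 : ℝ)))) * y =
        16800 * ((y : ℝ) * (y : ℝ) ^ (8 * b + 13) * (k : ℝ) ^ (398 / 200 : ℝ)) := by ring
    have h2 : (200 * ((7 * (y : ℝ) ^ (8 * b + 13)) *
        (12 * (k : ℝ) ^ (398 / 200 : ℝ)))) * y < X * y := by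
      rw [h1]; linarith
    exact lt_of_mul_lt_mul_right h2 hy0.le
  linarith

/-- `n` is in the class (1): the prime factors of `n` in `(k^d, √k]`, `k = ω(n)`, have
reciprocal sum at most `23/25`. -/
def ClassOne (d : ℝ) (n : ℕ) : Prop :=
  (∑ p ∈ n.primeFactors.filter (fun p : ℕ => (n.primeFactors.card : ℝ) ^ d < (p : ℝ) ∧
      (p : ℝ) ≤ Real.sqrt (n.primeFactors.card : ℝ)), 1 / (p : ℝ)) ≤ 23 / 25

theorem core : ∃ d : ℝ, 0 < d ∧ d < 1 / 5 ∧ ∀ᶠ k : ℕ in atTop, ∀ n : ℕ, 1 < n →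
    n.primeFactors.card = k → ClassOne d n → (jac n : ℝ) ≤ 16801 * (k : ℝ) ^ (399 / 200 : ℝ) := by
  obtain ⟨b, hb⟩ := fl_mult (1 / 2000) (by norm_num)
  set d : ℝ := 1 / (200 * (8 * (b : ℝ) + 14)) with hd
  have hb0 : (0 : ℝ) ≤ b := Nat.cast_nonneg b
  have hdpos : 0 < d := by rw [hd]; positivity
  have hdlt5 : d < 1 / 5 := by
    rw [hd, div_lt_iff₀ (by positivity)]
    nlinarith
  have hdlt : d < 99 / 200 := by linarith
  refine ⟨d, hdpos, hdlt5, ?_⟩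
  have hdt : Tendsto (fun k : ℕ => (k : ℝ) ^ d) atTop atTop :=
    (tendsto_rpow_atTop hdpos).comp tendsto_natCast_atTop_atTop
  have htail := tail_bound (99 / 200) (201 / 200) (18 / 25) (by norm_num) (by norm_num)
    (by norm_num) (by
      have := log_two_window
      rwa [show (201 / 200 : ℝ) / (99 / 200) = 201 / 99 by norm_num])
  filter_upwards [eventually_ge_atTop 1, hdt.eventually_ge_atTop 1001, htail]
    with k hk1 hk2 hk3 n hn hnk hsum
  unfold ClassOne at hsum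
  have hk1' : (1 : ℝ) ≤ k := by exact_mod_cast hk1
  have hk0 : (0 : ℝ) < k := by linarith
  rw [hnk] at hsum
  set y := ⌊(k : ℝ) ^ d⌋₊ with hy
  set z := ⌊(k : ℝ) ^ (99 / 200 : ℝ)⌋₊ with hz
  have hy1000 : (1000 : ℝ) ≤ y := by
    have : (k : ℝ) ^ d < y + 1 := Nat.lt_floor_add_one _
    linarith
  have hy1 : 1 ≤ y := by
    have : (1 : ℝ) ≤ y := by linarith
    exact_mod_cast this
  have hyk : (y : ℝ) ≤ (k : ℝ) ^ d := Nat.floor_le (by positivity)
  have hzk : (z : ℝ) ≤ (k : ℝ) ^ (99 / 200 : ℝ) := Nat.floor_le (by positivity)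
  have hyz : y ≤ z := Nat.floor_le_floor (Real.rpow_le_rpow_of_exponent_le hk1' hdlt.le)
  set S1 := n.primeFactors.filter (fun p => y < p ∧ p ≤ z) with hS1
  set S2 := n.primeFactors.filter (fun p => z < p) with hS2
  have hσ2 : ∑ q ∈ S2, 1 / (q : ℝ) ≤ 18 / 25 := hk3 n hnk
  have hσ1 : ∑ p ∈ S1, 1 / (p : ℝ) ≤ 23 / 25 := by
    refine le_trans (Finset.sum_le_sum_of_subset_of_nonneg ?_ (fun p _ _ => by positivity)) hsum
    intro p hp
    rw [hS1, Finset.mem_filter] at hp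
    rw [Finset.mem_filter]
    refine ⟨hp.1, Nat.lt_of_floor_lt hp.2.1, ?_⟩
    have h1 : (p : ℝ) ≤ z := by exact_mod_cast hp.2.2
    rw [Real.sqrt_eq_rpow]
    exact h1.trans (hzk.trans (Real.rpow_le_rpow_of_exponent_le hk1' (by norm_num)))
  have hσ20 : 0 ≤ ∑ q ∈ S2, 1 / (q : ℝ) := Finset.sum_nonneg (fun p _ => by positivity)
  have hsq : ∑ p ∈ S1, (1 / (p : ℝ)) ^ 2 ≤ 1 / 1000 := by
    calc ∑ p ∈ S1, (1 / (p : ℝ)) ^ 2 ≤ ∑ p ∈ S1, (1 / 1000) * (1 / (p : ℝ)) := by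
          refine Finset.sum_le_sum (fun p hp => ?_)
          rw [hS1, Finset.mem_filter] at hp
          have h1 : (1000 : ℝ) ≤ p := by
            have : (y : ℝ) < p := by exact_mod_cast hp.2.1
            linarith
          rw [sq]
          apply mul_le_mul_of_nonneg_right _ (by positivity)
          exact one_div_le_one_div_of_le (by norm_num) h1
      _ = (1 / 1000) * ∑ p ∈ S1, (1 / (p : ℝ)) := by rw [Finset.mul_sum]
      _ ≤ 1 / 1000 := by nlinarith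
  have hmain := main_pos (fun p => 1 / (p : ℝ)) S1 _ (fun p _ => by positivity) hσ1 hsq hσ20 hσ2
  have hc1 : (S1.card : ℝ) ≤ (k : ℝ) ^ (99 / 200 : ℝ) := by
    refine le_trans ?_ hzk
    have : S1.card ≤ z := by
      calc S1.card ≤ (Finset.Icc 1 z).card := by
            apply Finset.card_le_card
            intro p hp
            rw [hS1, Finset.mem_filter] at hp
            rw [Finset.mem_Icc]
            omega
        _ = z := by simp
    exact_mod_cast this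
  have hc2 : (S2.card : ℝ) ≤ k := by
    have : S2.card ≤ k := by
      rw [← hnk]
      exact Finset.card_le_card (Finset.filter_subset _ _)
    exact_mod_cast this
  set w : ℝ := (k : ℝ) ^ (99 / 200 : ℝ) with hw
  have hw1 : 1 ≤ w := Real.one_le_rpow hk1' (by norm_num)
  have hwk : w * w ^ 2 ≤ (k : ℝ) * w ^ 2 := by
    apply mul_le_mul_of_nonneg_right _ (by positivity)
    calc w ≤ (k : ℝ) ^ (1 : ℝ) := Real.rpow_le_rpow_of_exponent_le hk1' (by norm_num)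
      _ = k := Real.rpow_one _
  have hcount : (((S1.card : ℝ) + 1) ^ 3 + S2.card * ((S1.card : ℝ) + 1) ^ 2) ≤
      12 * (k : ℝ) ^ (398 / 200 : ℝ) := by
    have h1 : ((S1.card : ℝ) + 1) ≤ 2 * w := by linarith
    have h0 : (0 : ℝ) ≤ (S1.card : ℝ) + 1 := by positivity
    have h2 : ((S1.card : ℝ) + 1) ^ 3 ≤ (2 * w) ^ 3 := pow_le_pow_left₀ h0 h1 3
    have h3 : ((S1.card : ℝ) + 1) ^ 2 ≤ (2 * w) ^ 2 := pow_le_pow_left₀ h0 h1 2
    have h4 : (S2.card : ℝ) * ((S1.card : ℝ) + 1) ^ 2 ≤ k * (2 * w) ^ 2 :=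
      mul_le_mul hc2 h3 (by positivity) hk0.le
    have h5 : (k : ℝ) ^ (398 / 200 : ℝ) = k * w ^ 2 := by
      rw [hw, ← Real.rpow_natCast, ← Real.rpow_mul hk0.le]
      nth_rewrite 2 [← Real.rpow_one (k : ℝ)]
      rw [← Real.rpow_add hk0]
      norm_num
    rw [h5]
    nlinarith
  set N := ⌊16800 * (k : ℝ) ^ (399 / 200 : ℝ)⌋₊ + 1 with hN
  have hNlt : 16800 * (k : ℝ) ^ (399 / 200 : ℝ) < N := by
    rw [hN]; push_cast; exact Nat.lt_floor_add_one _
  have hNle : (N : ℝ) ≤ 16801 * (k : ℝ) ^ (399 / 200 : ℝ) := by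
    rw [hN]; push_cast
    have h1 : (⌊16800 * (k : ℝ) ^ (399 / 200 : ℝ)⌋₊ : ℝ) ≤ 16800 * (k : ℝ) ^ (399 / 200 : ℝ) :=
      Nat.floor_le (by positivity)
    have h2 : (1 : ℝ) ≤ (k : ℝ) ^ (399 / 200 : ℝ) := Real.one_le_rpow hk1' (by norm_num)
    linarith
  refine le_trans ?_ hNle
  have hgood : jac n ≤ N := by
    refine jac_le (by omega) (good_of_nat (by omega) (fun h => ?_))
    refine exists_good (1 / 2000) (by norm_num) b hb y hy1 N h n (by omega) S1 S2 ?_ ?_ ?_ ?_ ?_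
    · intro p hp
      rw [hS1, Finset.mem_filter] at hp
      exact ⟨Nat.prime_of_mem_primeFactors hp.1, hp.2.1⟩
    · intro p hp
      rw [hS2, Finset.mem_filter] at hp
      exact ⟨Nat.prime_of_mem_primeFactors hp.1, lt_of_le_of_lt hyz hp.2⟩
    · rw [Finset.disjoint_left]
      intro p hp hp'
      rw [hS1, Finset.mem_filter] at hp
      rw [hS2, Finset.mem_filter] at hp'
      omega
    · intro p hpp hpn
      have hmem : p ∈ n.primeFactors := Nat.mem_primeFactors.2 ⟨hpp, hpn, by omega⟩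
      rcases le_or_gt p y with h1 | h1
      · exact Or.inl h1
      · right
        rcases le_or_gt p z with h2 | h2
        · left; rw [hS1, Finset.mem_filter]; exact ⟨hmem, h1, h2⟩
        · right; rw [hS2, Finset.mem_filter]; exact ⟨hmem, h2⟩
    · exact final_ineq b y N k d hy1 hyk hk0 hd _ hσ1 _ hσ20 hσ2 _ _ hmain hcount (by positivity)
        hNlt
  exact_mod_cast hgood

/-- (1). -/
theorem part1 : ∃ d : ℝ, 0 < d ∧ ∃ C : ℝ, 0 < C ∧ ∀ n : ℕ, 1 < n → ClassOne d n →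
    (jac n : ℝ) ≤ C * (n.primeFactors.card : ℝ) ^ (399 / 200 : ℝ) := by
  obtain ⟨d, hd, _, h⟩ := core
  exact ⟨d, hd, finish _ (399 / 200) 16801 (by norm_num) (by norm_num) h⟩

/-- (2). -/
theorem part2 : ∃ d : ℝ, 0 < d ∧ ∃ C : ℝ, 0 < C ∧ ∀ n : ℕ, 1 < n →
    (∀ p : ℕ, p.Prime → p ∣ n → (p : ℝ) ≤ (n.primeFactors.card : ℝ) ^ d ∨
      (n.primeFactors.card : ℝ) ^ (1 / 5 : ℝ) < (p : ℝ)) →
    (jac n : ℝ) ≤ C * (n.primeFactors.card : ℝ) ^ (399 / 200 : ℝ) := by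
  obtain ⟨d, hd, _, h⟩ := core
  refine ⟨d, hd, finish _ (399 / 200) 16801 (by norm_num) (by norm_num) ?_⟩
  have hw := mert_window (1 / 5) (1 / 2) (by norm_num) (by norm_num)
  rw [show (1 / 2 : ℝ) / (1 / 5) = 5 / 2 by norm_num] at hw
  filter_upwards [h, hw.eventually_lt_const log_five_halves] with k hk hk2 n hn hnk hP
  refine hk n hn hnk ?_
  unfold ClassOne
  rw [hnk] at hP ⊢
  refine le_trans (Finset.sum_le_sum_of_subset_of_nonneg ?_ (fun p _ _ => by positivity)) hk2.le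
  intro p hp
  rw [Finset.mem_filter] at hp
  obtain ⟨hp1, hp2, hp3⟩ := hp
  have hpp := Nat.prime_of_mem_primeFactors hp1
  have h5 : (k : ℝ) ^ (1 / 5 : ℝ) < p := by
    rcases hP p hpp (Nat.dvd_of_mem_primeFactors hp1) with h1 | h1
    · exact absurd h1 (not_le.2 hp2)
    · exact h1
  rw [Finset.mem_filter]
  refine ⟨Nat.mem_primesLE.2 ⟨?_, hpp⟩, ?_⟩
  · rw [Real.sqrt_eq_rpow] at hp3
    exact Nat.le_floor hp3
  · exact (Nat.floor_lt (by positivity)).2 h5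

end

end Vale.Agent.P013
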