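import Vale.Agent.P013.Mid

/-!
# P013: the remaining statements
-/

namespace Vale.Agent.P013.MP

open Finset Filter Topology

noncomputable section

theorem jac_isLeast (n : ℕ) (hn : n ≠ 0) :
    IsLeast {m : ℕ | 0 < m ∧ ∀ a : ℤ, ∃ x : ℤ, a ≤ x ∧ x < a + m ∧ IsCoprime x (n : ℤ)}
      (jac n) := by
  have hne : {m : ℕ | 0 < m ∧ ∀ a : ℤ, ∃ x : ℤ, a ≤ x ∧ x < a + m ∧
      IsCoprime x (n : ℤ)}.Nonempty := by
    refine ⟨n, Nat.pos_of_ne_zero hn, fun a => ?_⟩
    have hn' : (0 : ℤ) < n := by exact_mod_cast Nat.pos_of_ne_zero hn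
    have h1 := Int.emod_nonneg (1 - a) hn'.ne'
    have h2 := Int.emod_lt_of_pos (1 - a) hn'
    have h3 := Int.emod_add_mul_ediv (1 - a) n
    refine ⟨a + (1 - a) % n, by linarith, by linarith, 1, (1 - a) / n, ?_⟩
    linarith
  exact ⟨Nat.sInf_mem hne, fun m hm => Nat.sInf_le hm⟩

theorem partE (P : Set ℕ) (hP : Summable (P.indicator fun p : ℕ => 1 / (p : ℝ))) :
    ∃ C : ℝ, ∀ n : ℕ, 1 < n → (∀ p ∈ n.primeFactors, p ∈ P) →
    (jac n : ℝ) ≤ C * n.primeFactors.card := by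
  obtain ⟨C, K, hC, hK, h⟩ := partA (1 / 2) (by norm_num)
  obtain ⟨s, hs⟩ := (summable_iff_vanishing_norm.1 hP) (1 / 2) (by norm_num)
  set y := s.sup id + 1 with hy
  refine ⟨2 * C * (y : ℝ) ^ K, fun n hn hnP => ?_⟩
  have hσ : ∑ p ∈ n.primeFactors.filter (fun p => y < p), 1 / (p : ℝ) ≤ 1 - 1 / 2 := by
    have hdisj : Disjoint (n.primeFactors.filter (fun p => y < p)) s := by
      rw [Finset.disjoint_left]
      intro p hp hps
      have h1 := (mem_filter.1 hp).2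
      have h2 : p ≤ s.sup id := le_sup (f := id) hps
      omega
    have h3 := hs _ hdisj
    have h4 : ∑ p ∈ n.primeFactors.filter (fun p => y < p), 1 / (p : ℝ) =
        ∑ p ∈ n.primeFactors.filter (fun p => y < p), P.indicator (fun p : ℕ => 1 / (p : ℝ)) p :=
      sum_congr rfl fun p hp => by
        rw [Set.indicator_of_mem (hnP p (mem_filter.1 hp).1)]
    rw [h4]
    have h5 := (le_abs_self _).trans h3.le
    linarith
  have h6 := h n y (by omega) (by omega) hσ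
  have hk1 : (1 : ℝ) ≤ n.primeFactors.card := by
    have : 1 ≤ n.primeFactors.card := by
      rw [Nat.succ_le_iff, card_pos, Nat.nonempty_primeFactors]
      exact hn
    exact_mod_cast this
  calc (jac n : ℝ) ≤ C * ((n.primeFactors.card : ℝ) + 1) * (y : ℝ) ^ K := h6
    _ ≤ C * (2 * n.primeFactors.card) * (y : ℝ) ^ K := by
        apply mul_le_mul_of_nonneg_right _ (by positivity)
        exact mul_le_mul_of_nonneg_left (by linarith) hC.le
    _ = 2 * C * (y : ℝ) ^ K * n.primeFactors.card := by ring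

theorem partF (θ δ : ℝ) (hθ : Real.exp (-1) < θ) (hθ1 : θ ≤ 1) (hδ : 0 < δ) :
    ∃ η C : ℝ, 0 < η ∧ 0 < C ∧ ∀ n : ℕ, 1 < n →
    (∀ p ∈ n.primeFactors, ¬ ((n.primeFactors.card : ℝ) ^ η < (p : ℝ) ∧
      (p : ℝ) ≤ (n.primeFactors.card : ℝ) ^ θ)) →
    (jac n : ℝ) ≤ C * (n.primeFactors.card : ℝ) ^ (1 + δ) := by
  have hθ0 : 0 < θ := (Real.exp_pos _).trans hθ
  have hlog : -1 < Real.log θ := by
    rw [Real.lt_log_iff_exp_lt hθ0]
    exact hθ
  obtain ⟨η, C, hη, hC, h⟩ := partD θ (1 + Real.log θ) δ hθ0 hθ1 (by linarith) hδ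
  refine ⟨η, C, hη, hC, fun n hn hno => h n hn ?_⟩
  rw [filter_false_of_mem hno, sum_empty, one_div, Real.log_inv]
  linarith

end

end Vale.Agent.P013.MP
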