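import Vale.Agent.P013.Bounds

/-!
# P013: Jacobsthal's function for `n` with few prime factors of middle size
-/

namespace Vale.Agent.P013.MP

open Finset Filter
open Vale.Agent.P003 Vale.Agent.P003.FLaux

noncomputable section

/-- Jacobsthal's function: the least positive `m` such that every `m` consecutive integers contain
one that is coprime to `n`. -/
def jac (n : ℕ) : ℕ :=
  sInf {m : ℕ | 0 < m ∧ ∀ a : ℤ, ∃ x : ℤ, a ≤ x ∧ x < a + m ∧ IsCoprime x (n : ℤ)}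

theorem Vs_ge (S : Finset ℕ) (y : ℕ) (hy : 1 ≤ y) : 1 / (y : ℝ) ≤ Vs S y := by
  have h1 : ∀ m : ℕ, 1 ≤ m → ∏ j ∈ Ioc 1 m, (1 - 1 / (j : ℝ)) = 1 / m := by
    intro m hm
    induction m, hm using Nat.le_induction with
    | base => simp
    | succ m hm ih =>
      have hm0 : (m : ℝ) ≠ 0 := by positivity
      rw [prod_Ioc_succ_top hm, ih]
      push_cast
      field_simp
      ring
  have hsub : Nat.primesLE y ⊆ Ioc 1 y := by
    intro p hp
    have := Nat.mem_primesLE.1 hp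
    exact mem_Ioc.2 ⟨this.2.one_lt, this.1⟩
  have h01 : ∀ j ∈ Ioc 1 y, (0 : ℝ) ≤ 1 - 1 / (j : ℝ) ∧ 1 - 1 / (j : ℝ) ≤ 1 := by
    intro j hj
    have hj1 : (1 : ℝ) ≤ j := by
      have := (mem_Ioc.1 hj).1
      exact_mod_cast this.le
    have : 1 / (j : ℝ) ≤ 1 := by
      rw [div_le_one (by linarith)]
      exact hj1
    have h0 : (0 : ℝ) ≤ 1 / (j : ℝ) := by positivity
    exact ⟨by linarith, by linarith⟩
  rw [← h1 y hy, ← prod_sdiff hsub]
  calc (∏ x ∈ Ioc 1 y \ Nat.primesLE y, (1 - 1 / (x : ℝ))) *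
        ∏ x ∈ Nat.primesLE y, (1 - 1 / (x : ℝ)) ≤ 1 * ∏ x ∈ Nat.primesLE y, (1 - 1 / (x : ℝ)) := by
        refine mul_le_mul_of_nonneg_right ?_ (prod_nonneg fun p hp => (h01 p (hsub hp)).1)
        exact prod_le_one (fun j hj => (h01 j (mem_sdiff.1 hj).1).1)
          fun j hj => (h01 j (mem_sdiff.1 hj).1).2
    _ = ∏ x ∈ Nat.primesLE y, (1 - 1 / (x : ℝ)) := one_mul _
    _ ≤ Vs S y := by
        refine prod_le_prod (fun p hp => (h01 p (hsub hp)).1) fun p _ => ?_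
        linarith [g_le S p]

/-- the basic estimate for one interval without integers coprime to `n` -/
theorem interval_bound (ε : ℝ) (hε : 0 < ε) (hε1 : ε ≤ 1) : ∃ K : ℕ, 1 ≤ K ∧
    ∀ (n y : ℕ), n ≠ 0 → 1 ≤ y →
    ∑ p ∈ n.primeFactors.filter (fun p => y < p), 1 / (p : ℝ) ≤ 1 - ε →
    ∀ (a : ℤ) (L : ℕ), (∀ x : ℤ, a ≤ x → x < a + L → ¬ IsCoprime x (n : ℤ)) →
    (L : ℝ) ≤ 4 / ε * ((n.primeFactors.card : ℝ) + 1) * (y : ℝ) ^ K := by
  obtain ⟨b, hb⟩ := main_g (ε / 8) (by positivity)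
  refine ⟨4 * b + 8, by omega, ?_⟩
  intro n y hn hy hσ a L hno
  set S := n.primeFactors with hS
  obtain ⟨m1, m2, m3⟩ := hb S y
  set E := ∏ i ∈ range (nb y), EE y b (g S) i with hE
  set M : ℝ := (y : ℝ) ^ (4 * b + 6) with hM
  set σ := ∑ p ∈ S.filter (fun p => y < p), 1 / (p : ℝ) with hσd
  have hy1 : (1 : ℝ) ≤ y := by exact_mod_cast hy
  have hM0 : 0 ≤ M := by positivity
  have hV := Vs_ge S y hy
  have hV0 : 0 < Vs S y := lt_of_lt_of_le (by positivity) hV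
  have hσ0 : 0 ≤ σ := sum_nonneg fun p _ => by positivity
  have hf0 : ∀ x : ℤ, 0 ≤ ∏ p ∈ Nat.primesLE y, (1 - zi S x p) := fun x =>
    prod_nonneg fun p _ => by linarith [(zi_bounds S x p).2]
  have hlow := lower_sum S a L y b hy
  -- covering by the large primes
  have hcov : ∑ x ∈ Ico a (a + L), ∏ p ∈ Nat.primesLE y, (1 - zi S x p) ≤
      ∑ q ∈ S.filter (fun p => y < p), ∑ x ∈ (Ico a (a + L)).filter (fun x => (q : ℤ) ∣ x),
        ∏ p ∈ Nat.primesLE y, (1 - zi S x p) := by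
    have e : ∀ q ∈ S.filter (fun p => y < p),
        ∑ x ∈ (Ico a (a + L)).filter (fun x => (q : ℤ) ∣ x),
          ∏ p ∈ Nat.primesLE y, (1 - zi S x p) =
        ∑ x ∈ Ico a (a + L), if (q : ℤ) ∣ x then ∏ p ∈ Nat.primesLE y, (1 - zi S x p) else 0 :=
      fun q _ => sum_filter _ _
    rw [sum_congr rfl e, sum_comm]
    refine sum_le_sum fun x hx => ?_
    have hx' := mem_Ico.1 hx
    have hnx := hno x hx'.1 hx'.2
    obtain ⟨p, hp, hpx, hpn⟩ : ∃ p : ℕ, p.Prime ∧ (p : ℤ) ∣ x ∧ p ∣ n := by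
      rw [Int.isCoprime_iff_gcd_eq_one] at hnx
      obtain ⟨p, hp, hd⟩ := Nat.exists_prime_and_dvd hnx
      refine ⟨p, hp, ?_, ?_⟩
      · exact (Int.natCast_dvd_natCast.2 hd).trans (Int.gcd_dvd_left _ _)
      · exact Int.natCast_dvd_natCast.1 ((Int.natCast_dvd_natCast.2 hd).trans
          (Int.gcd_dvd_right _ _))
    have hpS : p ∈ S := Nat.mem_primeFactors.2 ⟨hp, hpn, hn⟩
    by_cases hpy : p ≤ y
    · have : ∏ p ∈ Nat.primesLE y, (1 - zi S x p) = 0 := by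
        refine prod_eq_zero (Nat.mem_primesLE.2 ⟨hpy, hp⟩) ?_
        unfold zi
        rw [if_pos ⟨hpS, hpx⟩, sub_self]
      rw [this]
      refine sum_nonneg fun q _ => ?_
      split_ifs <;> exact le_rfl
    · push Not at hpy
      have h1 := single_le_sum (f := fun q : ℕ => if (q : ℤ) ∣ x then
        ∏ p ∈ Nat.primesLE y, (1 - zi S x p) else 0) (fun q _ => by
          show 0 ≤ if (q : ℤ) ∣ x then ∏ p ∈ Nat.primesLE y, (1 - zi S x p) else 0
          split_ifs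
          · exact hf0 x
          · exact le_rfl) (mem_filter.2 ⟨hpS, hpy⟩)
      rw [if_pos hpx] at h1
      exact h1
  have hup : ∑ q ∈ S.filter (fun p => y < p), ∑ x ∈ (Ico a (a + L)).filter
      (fun x => (q : ℤ) ∣ x), ∏ p ∈ Nat.primesLE y, (1 - zi S x p) ≤
      L * E * σ + S.card * M := by
    calc ∑ q ∈ S.filter (fun p => y < p), ∑ x ∈ (Ico a (a + L)).filter
          (fun x => (q : ℤ) ∣ x), ∏ p ∈ Nat.primesLE y, (1 - zi S x p)
        ≤ ∑ q ∈ S.filter (fun p => y < p), ((L / q : ℝ) * E + M) := by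
          refine sum_le_sum fun q hq => ?_
          obtain ⟨hq1, hq2⟩ := mem_filter.1 hq
          have hqp := (Nat.mem_primeFactors.1 hq1).1
          refine upper_sum S a L y q b hy hqp.pos fun p hp => ?_
          have hp' := Nat.mem_primesLE.1 hp
          refine (Nat.coprime_primes hqp hp'.2).2 ?_
          omega
      _ = L * E * σ + (S.filter (fun p => y < p)).card * M := by
          rw [sum_add_distrib, sum_const, nsmul_eq_mul, hσd, mul_sum]
          congr 1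
          refine sum_congr rfl fun q _ => by ring
      _ ≤ L * E * σ + S.card * M := by
          have : ((S.filter (fun p => y < p)).card : ℝ) ≤ S.card := by
            exact_mod_cast card_filter_le _ _
          nlinarith
  set R := ∑ l ∈ range (nb y), es y b (g S) l * ∏ i ∈ (range (nb y)).erase l, EE y b (g S) i
    with hR
  set X := Real.exp (ε / 8) with hX
  have hX1 : X ≤ 1 + 2 * (ε / 8) := by
    have h1 := Real.exp_bound_div_one_sub_of_interval (x := ε / 8) (by positivity) (by linarith)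
    refine h1.trans ?_
    rw [div_le_iff₀ (by linarith)]
    nlinarith
  have hX0 : 0 < X := Real.exp_pos _
  have hL0 : (0 : ℝ) ≤ L := Nat.cast_nonneg L
  have hkey : (L : ℝ) * Vs S y * (ε / 2) ≤ ((nb y : ℝ) + 1 + S.card) * M := by
    have h1 : (L : ℝ) * (E - R) - ((nb y : ℝ) + 1) * M ≤ L * E * σ + S.card * M :=
      (hlow.trans hcov).trans hup
    have h2 : (L : ℝ) * (E - R) ≥ L * (Vs S y - Vs S y * (ε / 8 * X)) :=
      mul_le_mul_of_nonneg_left (by linarith) hL0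
    have h3 : (L : ℝ) * E * σ ≤ L * (Vs S y * X) * (1 - ε) := by
      have h4 : (L : ℝ) * E ≤ L * (Vs S y * X) := mul_le_mul_of_nonneg_left m1 hL0
      have h5 : (0 : ℝ) ≤ L * (Vs S y * X) := by positivity
      calc (L : ℝ) * E * σ ≤ L * (Vs S y * X) * σ := mul_le_mul_of_nonneg_right h4 hσ0
        _ ≤ _ := mul_le_mul_of_nonneg_left hσ h5
    have h6 : ε / 2 ≤ 1 - ε / 8 * X - X * (1 - ε) := by nlinarith
    have h7 : (0 : ℝ) ≤ L * Vs S y := by positivity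
    have h8 := mul_le_mul_of_nonneg_left h6 h7
    nlinarith [h1, h2, h3, h8]
  have hnb : (nb y : ℝ) ≤ y := by
    have : nb y ≤ y := by
      unfold nb
      have : Nat.log 2 y < y := Nat.log_lt_self 2 (by omega)
      omega
    exact_mod_cast this
  have h9 : (L : ℝ) * (1 / y) * (ε / 2) ≤ (2 * y * ((S.card : ℝ) + 1)) * M := by
    have hc0 : (0 : ℝ) ≤ S.card := Nat.cast_nonneg _
    calc (L : ℝ) * (1 / y) * (ε / 2) ≤ (L : ℝ) * Vs S y * (ε / 2) := by
          apply mul_le_mul_of_nonneg_right _ (by positivity)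
          exact mul_le_mul_of_nonneg_left hV hL0
      _ ≤ ((nb y : ℝ) + 1 + S.card) * M := hkey
      _ ≤ (2 * y * ((S.card : ℝ) + 1)) * M := by
          apply mul_le_mul_of_nonneg_right _ hM0
          nlinarith
  have h10 : (L : ℝ) = ((L : ℝ) * (1 / y) * (ε / 2)) * (2 / ε * y) := by
    field_simp
  calc (L : ℝ) = ((L : ℝ) * (1 / y) * (ε / 2)) * (2 / ε * y) := h10
    _ ≤ ((2 * y * ((S.card : ℝ) + 1)) * M) * (2 / ε * y) :=
        mul_le_mul_of_nonneg_right h9 (by positivity)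
    _ = 4 / ε * ((S.card : ℝ) + 1) * (y : ℝ) ^ (4 * b + 8) := by
        rw [hM]
        ring

/-- (A) -/
theorem partA (ε : ℝ) (hε : 0 < ε) : ∃ (C : ℝ) (K : ℕ), 0 < C ∧ 1 ≤ K ∧
    ∀ (n y : ℕ), n ≠ 0 → 1 ≤ y →
    ∑ p ∈ n.primeFactors.filter (fun p => y < p), 1 / (p : ℝ) ≤ 1 - ε →
    (jac n : ℝ) ≤ C * ((n.primeFactors.card : ℝ) + 1) * (y : ℝ) ^ K := by
  obtain ⟨K, hK1, hK⟩ := interval_bound (min ε 1) (lt_min hε one_pos) (min_le_right _ _)
  set ε' := min ε 1 with hε'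
  have hε'0 : 0 < ε' := lt_min hε one_pos
  refine ⟨4 / ε' + 1, K, by positivity, hK1, ?_⟩
  intro n y hn hy hσ
  have hσ' : ∑ p ∈ n.primeFactors.filter (fun p => y < p), 1 / (p : ℝ) ≤ 1 - ε' := by
    have : ε' ≤ ε := min_le_left _ _
    linarith
  have hy1 : (1 : ℝ) ≤ y := by exact_mod_cast hy
  set B := 4 / ε' * ((n.primeFactors.card : ℝ) + 1) * (y : ℝ) ^ K with hB
  have hB0 : 0 ≤ B := by positivity
  have hmem : ⌊B⌋₊ + 1 ∈ {m : ℕ | 0 < m ∧ ∀ a : ℤ, ∃ x : ℤ, a ≤ x ∧ x < a + m ∧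
      IsCoprime x (n : ℤ)} := by
    refine ⟨Nat.succ_pos _, fun a => ?_⟩
    by_contra hc
    push Not at hc
    have h1 := hK n y hn hy hσ' a (⌊B⌋₊ + 1) (fun x hx1 hx2 => hc x hx1 hx2)
    have h2 := Nat.lt_floor_add_one B
    push_cast at h1
    linarith
  have h3 : jac n ≤ ⌊B⌋₊ + 1 := Nat.sInf_le hmem
  have h4 : (jac n : ℝ) ≤ ⌊B⌋₊ + 1 := by exact_mod_cast h3
  have h5 := Nat.floor_le hB0
  have h6 : (1 : ℝ) ≤ ((n.primeFactors.card : ℝ) + 1) * (y : ℝ) ^ K := by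
    have h7 : (1 : ℝ) ≤ (y : ℝ) ^ K := one_le_pow₀ hy1
    have h8 : (1 : ℝ) ≤ (n.primeFactors.card : ℝ) + 1 := by
      have : (0 : ℝ) ≤ n.primeFactors.card := Nat.cast_nonneg _
      linarith
    nlinarith
  calc (jac n : ℝ) ≤ B + ((n.primeFactors.card : ℝ) + 1) * (y : ℝ) ^ K := by linarith
    _ = _ := by rw [hB]; ring

/-- (B) -/
theorem partB (ε δ : ℝ) (hε : 0 < ε) (hδ : 0 < δ) : ∃ η C : ℝ, 0 < η ∧ 0 < C ∧
    ∀ n : ℕ, 1 < n →
    ∑ p ∈ n.primeFactors.filter (fun p : ℕ => (n.primeFactors.card : ℝ) ^ η < (p : ℝ)),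
      1 / (p : ℝ) ≤ 1 - ε →
    (jac n : ℝ) ≤ C * (n.primeFactors.card : ℝ) ^ (1 + δ) := by
  obtain ⟨C, K, hC, hK1, h⟩ := partA ε hε
  have hK0 : (0 : ℝ) < K := by exact_mod_cast hK1
  refine ⟨δ / K, 2 * C, by positivity, by positivity, ?_⟩
  intro n hn hσ
  set k := n.primeFactors.card with hk
  have hk1 : 1 ≤ k := by
    rw [hk, Nat.succ_le_iff, card_pos, Nat.nonempty_primeFactors]
    exact hn
  have hk1' : (1 : ℝ) ≤ k := by exact_mod_cast hk1
  have hk0 : (0 : ℝ) < k := by linarith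
  have hz1 : (1 : ℝ) ≤ (k : ℝ) ^ (δ / K) := Real.one_le_rpow hk1' (by positivity)
  have hy : 1 ≤ ⌊(k : ℝ) ^ (δ / K)⌋₊ := Nat.le_floor (by exact_mod_cast hz1)
  have e : n.primeFactors.filter (fun p => ⌊(k : ℝ) ^ (δ / K)⌋₊ < p) =
      n.primeFactors.filter (fun p : ℕ => (k : ℝ) ^ (δ / K) < (p : ℝ)) := by
    refine filter_congr fun p _ => ?_
    exact Nat.floor_lt (by positivity)
  have h1 := h n ⌊(k : ℝ) ^ (δ / K)⌋₊ (by omega) hy (by rw [e]; exact hσ)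
  have h2 : ((⌊(k : ℝ) ^ (δ / K)⌋₊ : ℕ) : ℝ) ^ K ≤ (k : ℝ) ^ δ := by
    calc ((⌊(k : ℝ) ^ (δ / K)⌋₊ : ℕ) : ℝ) ^ K ≤ ((k : ℝ) ^ (δ / K)) ^ K :=
          pow_le_pow_left₀ (Nat.cast_nonneg _) (Nat.floor_le (by positivity)) _
      _ = (k : ℝ) ^ δ := by
          rw [← Real.rpow_natCast, ← Real.rpow_mul hk0.le, div_mul_cancel₀ _ hK0.ne']
  calc (jac n : ℝ) ≤ C * ((k : ℝ) + 1) * ((⌊(k : ℝ) ^ (δ / K)⌋₊ : ℕ) : ℝ) ^ K := h1
    _ ≤ C * (2 * k) * (k : ℝ) ^ δ := by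
        apply mul_le_mul _ h2 (by positivity) (by positivity)
        exact mul_le_mul_of_nonneg_left (by linarith) hC.le
    _ = 2 * C * (k : ℝ) ^ (1 + δ) := by
        rw [Real.rpow_add hk0, Real.rpow_one]
        ring

end

end Vale.Agent.P013.MP
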