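import Vale.Agent.P013.H1.PrimeSum

/-! P013: Mertens in windows. -/

namespace Vale.Agent.P013

open Finset Filter Topology

theorem log_two_window : Real.log (201/99) < 18/25 := by
  have h1 : Real.log (201/99) = Real.log 2 + Real.log (201/198) := by
    rw [← Real.log_mul (by norm_num) (by norm_num)]; norm_num
  have h2 := Real.log_le_sub_one_of_pos (x := (201:ℝ)/198) (by norm_num)
  have h3 := Real.log_two_lt_d9
  rw [h1]
  linarith

theorem log_five_halves : Real.log (5/2) < 23/25 := by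
  have h1 : 31 * Real.log (5/2) < 41 * Real.log 2 := by
    rw [show (31 : ℝ) * Real.log (5/2) = Real.log ((5/2)^31) by rw [Real.log_pow]; norm_num,
      show (41 : ℝ) * Real.log 2 = Real.log (2^41) by rw [Real.log_pow]; norm_num]
    exact Real.log_lt_log (by norm_num) (by norm_num)
  have h3 := Real.log_two_lt_d9
  linarith

/-- `log (floor (k ^ a)) / log k → a`. -/
theorem tendsto_log_floor (a : ℝ) (ha : 0 < a) :
    Tendsto (fun k : ℕ => Real.log (⌊(k:ℝ)^a⌋₊ : ℝ) / Real.log k) atTop (𝓝 a) := by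
  have hl : Tendsto (fun k : ℕ => Real.log (k : ℝ)) atTop atTop :=
    Real.tendsto_log_atTop.comp tendsto_natCast_atTop_atTop
  have h0 : Tendsto (fun k : ℕ => a - Real.log 2 / Real.log (k : ℝ)) atTop (𝓝 a) := by
    have := hl.const_div_atTop (Real.log 2)
    simpa using tendsto_const_nhds.sub this
  refine tendsto_of_tendsto_of_tendsto_of_le_of_le' h0 tendsto_const_nhds ?_ ?_
  · filter_upwards [hl.eventually_ge_atTop 1, eventually_ge_atTop 2] with k hk hk2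
    have hkR : (1 : ℝ) ≤ k := by exact_mod_cast (by omega : 1 ≤ k)
    have h1 : (1 : ℝ) ≤ (k : ℝ) ^ a := Real.one_le_rpow hkR ha.le
    have h2 : 1 ≤ ⌊(k:ℝ)^a⌋₊ := Nat.le_floor (by exact_mod_cast h1)
    have h3 : (k:ℝ)^a / 2 ≤ (⌊(k:ℝ)^a⌋₊ : ℝ) := by
      have h4 := Nat.lt_floor_add_one ((k:ℝ)^a)
      have h5 : (1 : ℝ) ≤ (⌊(k:ℝ)^a⌋₊ : ℝ) := by exact_mod_cast h2
      linarith
    have h6 : a * Real.log k - Real.log 2 ≤ Real.log (⌊(k:ℝ)^a⌋₊ : ℝ) := by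
      rw [← Real.log_rpow (by linarith), ← Real.log_div (by positivity) two_ne_zero]
      exact Real.log_le_log (by positivity) h3
    have hk0 : 0 < Real.log (k : ℝ) := by linarith
    rw [le_div_iff₀ hk0, sub_mul, div_mul_cancel₀ _ hk0.ne']
    exact h6
  · filter_upwards [hl.eventually_ge_atTop 1, eventually_ge_atTop 2] with k hk hk2
    have hkR : (1 : ℝ) ≤ k := by exact_mod_cast (by omega : 1 ≤ k)
    have h1 : (1 : ℝ) ≤ (k : ℝ) ^ a := Real.one_le_rpow hkR ha.le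
    have h2 : 1 ≤ ⌊(k:ℝ)^a⌋₊ := Nat.le_floor (by exact_mod_cast h1)
    have hk0 : 0 < Real.log (k : ℝ) := by linarith
    rw [div_le_iff₀ hk0, ← Real.log_rpow (by linarith)]
    exact Real.log_le_log (by exact_mod_cast h2) (Nat.floor_le (by positivity))

theorem mert_window (a b : ℝ) (ha : 0 < a) (hab : a < b) :
    Filter.Tendsto (fun k : ℕ =>
      ∑ p ∈ (Nat.primesLE ⌊(k:ℝ)^b⌋₊).filter (fun p => ⌊(k:ℝ)^a⌋₊ < p), (1:ℝ)/p)
      Filter.atTop (nhds (Real.log (b/a))) := by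
  have hb : 0 < b := ha.trans hab
  obtain ⟨B, C, hC⟩ := P031.mertens_two
  have hl : Tendsto (fun k : ℕ => Real.log (k : ℝ)) atTop atTop :=
    Real.tendsto_log_atTop.comp tendsto_natCast_atTop_atTop
  have hfl : ∀ c : ℝ, 0 < c → Tendsto (fun k : ℕ => ⌊(k:ℝ)^c⌋₊) atTop atTop := fun c hc =>
    tendsto_nat_floor_atTop.comp ((tendsto_rpow_atTop hc).comp tendsto_natCast_atTop_atTop)
  have key : ∀ c : ℝ, 0 < c → Tendsto (fun k : ℕ =>
      ∑ p ∈ Nat.primesLE ⌊(k:ℝ)^c⌋₊, (1:ℝ)/p - Real.log (Real.log k)) atTop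
      (𝓝 (Real.log c + B)) := by
    intro c hc
    have h1 : Tendsto (fun k : ℕ => ∑ p ∈ Nat.primesLE ⌊(k:ℝ)^c⌋₊, (1:ℝ)/p -
        Real.log (Real.log (⌊(k:ℝ)^c⌋₊ : ℝ)) - B) atTop (𝓝 0) := by
      have h2 : Tendsto (fun k : ℕ => C / Real.log (⌊(k:ℝ)^c⌋₊ : ℝ)) atTop (𝓝 0) :=
        (Tendsto.const_div_atTop (hl.comp (hfl c hc)) C)
      refine squeeze_zero_norm' ?_ h2
      filter_upwards [(hfl c hc).eventually_ge_atTop 2] with k hk
      rw [Real.norm_eq_abs]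
      exact hC _ hk
    have h3 : Tendsto (fun k : ℕ => Real.log (Real.log (⌊(k:ℝ)^c⌋₊ : ℝ) / Real.log k)) atTop
        (𝓝 (Real.log c)) :=
      (Real.continuousAt_log hc.ne').tendsto.comp (tendsto_log_floor c hc)
    have h4 := (h1.add h3).add_const B
    refine (h4.congr' ?_).trans (by rw [zero_add])
    filter_upwards [hl.eventually_ge_atTop 1,
      (hl.comp (hfl c hc)).eventually_ge_atTop 1] with k hk hk2
    have hk2' : (1 : ℝ) ≤ Real.log (⌊(k:ℝ)^c⌋₊ : ℝ) := hk2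
    rw [Real.log_div (by linarith) (by linarith)]
    ring
  have h5 := (key b hb).sub (key a ha)
  have e : Real.log b + B - (Real.log a + B) = Real.log (b / a) := by
    rw [Real.log_div hb.ne' ha.ne']; ring
  rw [e] at h5
  refine h5.congr' ?_
  filter_upwards [eventually_ge_atTop 1] with k hk
  have hkR : (1 : ℝ) ≤ k := by exact_mod_cast hk
  have hle : ⌊(k:ℝ)^a⌋₊ ≤ ⌊(k:ℝ)^b⌋₊ :=
    Nat.floor_le_floor (Real.rpow_le_rpow_of_exponent_le hkR hab.le)
  have hsub : Nat.primesLE ⌊(k:ℝ)^a⌋₊ ⊆ Nat.primesLE ⌊(k:ℝ)^b⌋₊ := by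
    intro p hp
    rw [Nat.mem_primesLE] at hp ⊢
    exact ⟨hp.1.trans hle, hp.2⟩
  have hfil : (Nat.primesLE ⌊(k:ℝ)^b⌋₊).filter (fun p => ⌊(k:ℝ)^a⌋₊ < p) =
      Nat.primesLE ⌊(k:ℝ)^b⌋₊ \ Nat.primesLE ⌊(k:ℝ)^a⌋₊ := by
    ext p
    simp only [Finset.mem_filter, Finset.mem_sdiff, Nat.mem_primesLE]
    constructor
    · rintro ⟨h1, h2⟩
      exact ⟨h1, fun h3 => by omega⟩
    · rintro ⟨h1, h2⟩
      refine ⟨h1, ?_⟩
      by_contra h3
      exact h2 ⟨by omega, h1.2⟩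
  rw [hfil, ← Finset.sum_sdiff hsub]
  ring

end Vale.Agent.P013
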