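import Vale.Agent.P013.Main
import Vale.Agent.P031.Mert

/-!
# P013: only the prime factors of middle size matter
-/

namespace Vale.Agent.P013.MP

open Finset Filter Topology

noncomputable section

theorem exists_kappa (θ τ : ℝ) (hθ : 0 < θ) (hτ : 0 < τ) : ∃ κ : ℝ, 0 < κ ∧ κ < θ ∧
    Real.log ((1 + κ) / (θ - κ)) ≤ Real.log (1 / θ) + τ := by
  have hc : ContinuousAt (fun x : ℝ => Real.log ((1 + x) / (θ - x))) 0 := by
    have h1 : ContinuousAt (fun x : ℝ => (1 + x) / (θ - x)) 0 := by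
      refine ContinuousAt.div (by fun_prop) (by fun_prop) ?_
      rw [sub_zero]
      exact hθ.ne'
    refine h1.log ?_
    rw [add_zero, sub_zero]
    positivity
  have h0 : (fun x : ℝ => Real.log ((1 + x) / (θ - x))) 0 < Real.log (1 / θ) + τ := by
    simp only [add_zero, sub_zero]
    linarith
  have e1 := hc.eventually (gt_mem_nhds h0)
  have e2 : ∀ᶠ x : ℝ in 𝓝 0, x < θ := gt_mem_nhds hθ
  have e3 : ∀ᶠ x : ℝ in 𝓝[>] 0, 0 < x ∧ x < θ ∧
      Real.log ((1 + x) / (θ - x)) < Real.log (1 / θ) + τ := by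
    filter_upwards [self_mem_nhdsWithin, nhdsWithin_le_nhds e1, nhdsWithin_le_nhds e2]
      with x h1 h2 h3
    exact ⟨h1, h3, h2⟩
  obtain ⟨κ, h1, h2, h3⟩ := e3.exists
  exact ⟨κ, h1, h2, h3.le⟩

theorem mid_sum' (θ τ : ℝ) (hθ : 0 < θ) (hθ1 : θ ≤ 1) (hτ : 0 < τ) :
    ∃ (κ : ℝ) (k₀ : ℕ), 0 < κ ∧ 2 ≤ k₀ ∧ ∀ k : ℕ, k₀ ≤ k → 1 / τ ≤ (k : ℝ) ^ κ ∧
    ∑ p ∈ (Nat.primesLE ⌊(k : ℝ) ^ (1 + κ)⌋₊).filter
      (fun p => ⌊(k : ℝ) ^ θ⌋₊ < p), 1 / (p : ℝ) ≤ Real.log (1 / θ) + 3 * τ := by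
  obtain ⟨B, C, hBC⟩ := P031.mertens_two
  obtain ⟨κ, hκ, hκθ, hlogκ⟩ := exists_kappa θ τ hθ hτ
  set c := θ - κ with hc
  have hc0 : 0 < c := by rw [hc]; linarith
  have ev1 : ∀ᶠ k : ℕ in atTop, max (1 / τ) 2 ≤ (k : ℝ) ^ κ :=
    ((tendsto_rpow_atTop hκ).comp tendsto_natCast_atTop_atTop).eventually_ge_atTop _
  have ev2 : ∀ᶠ k : ℕ in atTop, |C| / (c * τ) + 1 / c + 1 ≤ Real.log (k : ℝ) :=
    (Real.tendsto_log_atTop.comp tendsto_natCast_atTop_atTop).eventually_ge_atTop _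
  obtain ⟨k₀, hk₀⟩ := eventually_atTop.1 (ev1.and ev2)
  refine ⟨κ, max k₀ 2, hκ, le_max_right _ _, fun k hk => ?_⟩
  obtain ⟨hmax, hlog⟩ := hk₀ k ((le_max_left _ _).trans hk)
  have hτk : 1 / τ ≤ (k : ℝ) ^ κ := (le_max_left _ _).trans hmax
  have h2k : 2 ≤ (k : ℝ) ^ κ := (le_max_right _ _).trans hmax
  refine ⟨hτk, ?_⟩
  have hk2 : 2 ≤ k := (le_max_right _ _).trans hk
  have hk1 : (1 : ℝ) ≤ k := by exact_mod_cast (by omega : 1 ≤ k)
  have hk0 : (0 : ℝ) < k := by linarith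
  have hC0 : 0 ≤ |C| := abs_nonneg C
  have hCq : 0 ≤ |C| / (c * τ) := by positivity
  have h1c : 0 < 1 / c := by positivity
  have hlk : 1 ≤ Real.log (k : ℝ) := by linarith
  have hclk1 : 1 ≤ c * Real.log k := by
    have h1 : 1 / c ≤ Real.log k := by linarith
    rw [div_le_iff₀ hc0] at h1
    linarith
  have hclk2 : |C| ≤ c * τ * Real.log k := by
    have h1 : |C| / (c * τ) ≤ Real.log k := by linarith
    rw [div_le_iff₀ (by positivity)] at h1
    linarith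
  set z1 := ⌊(k : ℝ) ^ θ⌋₊ with hz1
  set z2 := ⌊(k : ℝ) ^ (1 + κ)⌋₊ with hz2
  have e1 : (k : ℝ) ^ c ≤ z1 := by
    have h1 : (k : ℝ) ^ θ = (k : ℝ) ^ c * (k : ℝ) ^ κ := by
      rw [← Real.rpow_add hk0, hc]
      congr 1
      ring
    have h2 : 1 ≤ (k : ℝ) ^ c := Real.one_le_rpow hk1 hc0.le
    have h3 := Nat.lt_floor_add_one ((k : ℝ) ^ θ)
    rw [← hz1] at h3
    nlinarith
  have hz1pos : (0 : ℝ) < z1 := lt_of_lt_of_le (by positivity) e1
  have l1 : c * Real.log k ≤ Real.log z1 := by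
    rw [← Real.log_rpow hk0]
    exact Real.log_le_log (by positivity) e1
  have hz12 : z1 ≤ z2 := Nat.floor_mono (Real.rpow_le_rpow_of_exponent_le hk1 (by linarith))
  have hz12' : (z1 : ℝ) ≤ z2 := by exact_mod_cast hz12
  have hz2pos : (0 : ℝ) < z2 := lt_of_lt_of_le hz1pos hz12'
  have l12 : Real.log z1 ≤ Real.log z2 := Real.log_le_log hz1pos hz12'
  have l2 : Real.log z2 ≤ (1 + κ) * Real.log k := by
    rw [← Real.log_rpow hk0]
    exact Real.log_le_log hz2pos (Nat.floor_le (by positivity))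
  have hz1two : 2 ≤ z1 := by
    by_contra hcon
    push Not at hcon
    have h4 : z1 ≤ 1 := by omega
    have h5 : (z1 : ℝ) ≤ 1 := by exact_mod_cast h4
    have h6 : Real.log z1 ≤ 0 := Real.log_nonpos hz1pos.le h5
    linarith
  have m1 := hBC z1 hz1two
  have m2 := hBC z2 (hz1two.trans hz12)
  rw [abs_le] at m1 m2
  have hsum : ∑ p ∈ (Nat.primesLE z2).filter (fun p => z1 < p), 1 / (p : ℝ) =
      ∑ p ∈ Nat.primesLE z2, 1 / (p : ℝ) - ∑ p ∈ Nat.primesLE z1, 1 / (p : ℝ) := by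
    rw [← sum_filter_add_sum_filter_not (Nat.primesLE z2) (fun p => z1 < p)]
    have : (Nat.primesLE z2).filter (fun p => ¬ z1 < p) = Nat.primesLE z1 := by
      ext p
      rw [mem_filter, Nat.mem_primesLE, Nat.mem_primesLE]
      constructor
      · rintro ⟨⟨_, h2⟩, h3⟩
        exact ⟨by omega, h2⟩
      · rintro ⟨h1, h2⟩
        exact ⟨⟨by omega, h2⟩, by omega⟩
    rw [this]
    ring
  have hCdiv : ∀ z : ℝ, c * Real.log k ≤ z → C / z ≤ τ := by
    intro z hz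
    have hz0 : 0 < z := by linarith
    rw [div_le_iff₀ hz0]
    have h1 := le_abs_self C
    nlinarith
  have d1 := hCdiv _ l1
  have d2 := hCdiv _ (l1.trans l12)
  have hll : Real.log (Real.log z2) - Real.log (Real.log z1) ≤ Real.log (1 / θ) + τ := by
    have hl1pos : 0 < Real.log z1 := by linarith
    have hl2pos : 0 < Real.log z2 := by linarith
    rw [← Real.log_div hl2pos.ne' hl1pos.ne']
    refine (Real.log_le_log (by positivity) ?_).trans hlogκ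
    rw [div_le_div_iff₀ hl1pos hc0]
    have h1 : Real.log z2 * c ≤ (1 + κ) * Real.log k * c :=
      mul_le_mul_of_nonneg_right l2 hc0.le
    have h2 : (1 + κ) * (c * Real.log k) ≤ (1 + κ) * Real.log z1 :=
      mul_le_mul_of_nonneg_left l1 (by linarith)
    linarith
  rw [hsum]
  linarith [m1.1, m2.2]

/-- (C) -/
theorem partD (θ ε δ : ℝ) (hθ : 0 < θ) (hθ1 : θ ≤ 1) (hε : 0 < ε) (hδ : 0 < δ) :
    ∃ η C : ℝ, 0 < η ∧ 0 < C ∧ ∀ n : ℕ, 1 < n →
    ∑ p ∈ n.primeFactors.filter (fun p : ℕ => (n.primeFactors.card : ℝ) ^ η < (p : ℝ) ∧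
      (p : ℝ) ≤ (n.primeFactors.card : ℝ) ^ θ), 1 / (p : ℝ) ≤ 1 - Real.log (1 / θ) - ε →
    (jac n : ℝ) ≤ C * (n.primeFactors.card : ℝ) ^ (1 + δ) := by
  obtain ⟨η, C1, hη, hC1, h1⟩ := partB (ε / 5) δ (by positivity) hδ
  obtain ⟨C2, K, hC2, hK, h2⟩ := partA (1 / 2) (by norm_num)
  obtain ⟨κ, k₀, hκ, hk₀2, hk₀⟩ := mid_sum' θ (ε / 5) hθ hθ1 (by positivity)
  set C3 : ℝ := C2 * ((k₀ : ℝ) + 1) * ((2 * k₀ : ℕ) : ℝ) ^ K with hC3
  have hk₀0 : (0 : ℝ) < k₀ := by exact_mod_cast (by omega : 0 < k₀)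
  have hC3pos : 0 < C3 := by
    have : (0 : ℝ) < ((2 * k₀ : ℕ) : ℝ) := by push_cast; linarith
    positivity
  refine ⟨η, C1 + C3, hη, by positivity, ?_⟩
  intro n hn hno
  set k := n.primeFactors.card with hk
  have hk1 : 1 ≤ k := by
    rw [hk, Nat.succ_le_iff, card_pos, Nat.nonempty_primeFactors]
    exact hn
  have hk1' : (1 : ℝ) ≤ k := by exact_mod_cast hk1
  have hk0 : (0 : ℝ) < k := by linarith
  have hkd : 1 ≤ (k : ℝ) ^ (1 + δ) := Real.one_le_rpow hk1' (by positivity)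
  rcases lt_or_ge k k₀ with hlt | hge
  · have hlt' : (k : ℝ) ≤ k₀ := by exact_mod_cast hlt.le
    have hs : ∑ p ∈ n.primeFactors.filter (fun p => 2 * k₀ < p), 1 / (p : ℝ) ≤ 1 - 1 / 2 := by
      calc ∑ p ∈ n.primeFactors.filter (fun p => 2 * k₀ < p), 1 / (p : ℝ)
          ≤ ∑ p ∈ n.primeFactors.filter (fun p => 2 * k₀ < p), 1 / (2 * (k₀ : ℝ)) := by
            refine sum_le_sum fun p hp => ?_
            have h3 : 2 * k₀ < p := (mem_filter.1 hp).2
            have h4 : (2 * (k₀ : ℝ)) ≤ p := by exact_mod_cast h3.le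
            exact one_div_le_one_div_of_le (by positivity) h4
        _ = (n.primeFactors.filter (fun p => 2 * k₀ < p)).card * (1 / (2 * (k₀ : ℝ))) := by
            rw [sum_const, nsmul_eq_mul]
        _ ≤ k * (1 / (2 * (k₀ : ℝ))) := by
            apply mul_le_mul_of_nonneg_right _ (by positivity)
            exact_mod_cast card_filter_le _ _
        _ ≤ k₀ * (1 / (2 * (k₀ : ℝ))) := mul_le_mul_of_nonneg_right hlt' (by positivity)
        _ = 1 - 1 / 2 := by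
            field_simp
            norm_num
    have h5 := h2 n (2 * k₀) (by omega) (by omega) hs
    calc (jac n : ℝ) ≤ C2 * ((k : ℝ) + 1) * ((2 * k₀ : ℕ) : ℝ) ^ K := h5
      _ ≤ C3 := by
          rw [hC3]
          apply mul_le_mul_of_nonneg_right _ (by positivity)
          exact mul_le_mul_of_nonneg_left (by linarith) hC2.le
      _ ≤ (C1 + C3) * 1 := by linarith
      _ ≤ (C1 + C3) * (k : ℝ) ^ (1 + δ) := mul_le_mul_of_nonneg_left hkd (by positivity)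
  · obtain ⟨hτk, hmid⟩ := hk₀ k hge
    have hs : ∑ p ∈ n.primeFactors.filter (fun p : ℕ => (k : ℝ) ^ η < (p : ℝ)), 1 / (p : ℝ) ≤
        1 - ε / 5 := by
      set A := n.primeFactors.filter (fun p : ℕ => (k : ℝ) ^ η < (p : ℝ)) with hA
      rw [← sum_filter_add_sum_filter_not A (fun p : ℕ => (p : ℝ) ≤ (k : ℝ) ^ θ)]
      have s0 : ∑ p ∈ A.filter (fun p : ℕ => (p : ℝ) ≤ (k : ℝ) ^ θ), 1 / (p : ℝ) ≤
          1 - Real.log (1 / θ) - ε := by
        rw [hA, filter_filter]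
        exact hno
      rw [← sum_filter_add_sum_filter_not (A.filter (fun p : ℕ => ¬ (p : ℝ) ≤ (k : ℝ) ^ θ))
        (fun p : ℕ => (p : ℝ) ≤ (k : ℝ) ^ (1 + κ))]
      have s1 : ∑ p ∈ (A.filter (fun p : ℕ => ¬ (p : ℝ) ≤ (k : ℝ) ^ θ)).filter
          (fun p : ℕ => (p : ℝ) ≤ (k : ℝ) ^ (1 + κ)), 1 / (p : ℝ) ≤
          Real.log (1 / θ) + 3 * (ε / 5) := by
        refine (sum_le_sum_of_subset_of_nonneg ?_ fun p _ _ => by positivity).trans hmid
        intro p hp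
        obtain ⟨h3, h4⟩ := mem_filter.1 hp
        obtain ⟨h5, h6⟩ := mem_filter.1 h3
        push Not at h6
        refine mem_filter.2 ⟨Nat.mem_primesLE.2 ⟨Nat.le_floor h4, ?_⟩, ?_⟩
        · exact (Nat.mem_primeFactors.1 (mem_filter.1 h5).1).1
        · exact (Nat.floor_lt (by positivity)).2 h6
      have s2 : ∑ p ∈ (A.filter (fun p : ℕ => ¬ (p : ℝ) ≤ (k : ℝ) ^ θ)).filter
          (fun p : ℕ => ¬ (p : ℝ) ≤ (k : ℝ) ^ (1 + κ)), 1 / (p : ℝ) ≤ ε / 5 := by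
        have hpow : (0 : ℝ) < (k : ℝ) ^ (1 + κ) := by positivity
        calc ∑ p ∈ (A.filter (fun p : ℕ => ¬ (p : ℝ) ≤ (k : ℝ) ^ θ)).filter
              (fun p : ℕ => ¬ (p : ℝ) ≤ (k : ℝ) ^ (1 + κ)), 1 / (p : ℝ)
            ≤ ∑ p ∈ (A.filter (fun p : ℕ => ¬ (p : ℝ) ≤ (k : ℝ) ^ θ)).filter
              (fun p : ℕ => ¬ (p : ℝ) ≤ (k : ℝ) ^ (1 + κ)), 1 / (k : ℝ) ^ (1 + κ) := by
              refine sum_le_sum fun p hp => ?_
              have h3 := (mem_filter.1 hp).2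
              push Not at h3
              exact one_div_le_one_div_of_le hpow h3.le
          _ = ((A.filter (fun p : ℕ => ¬ (p : ℝ) ≤ (k : ℝ) ^ θ)).filter
              (fun p : ℕ => ¬ (p : ℝ) ≤ (k : ℝ) ^ (1 + κ))).card *
              (1 / (k : ℝ) ^ (1 + κ)) := by rw [sum_const, nsmul_eq_mul]
          _ ≤ k * (1 / (k : ℝ) ^ (1 + κ)) := by
              apply mul_le_mul_of_nonneg_right _ (by positivity)
              exact_mod_cast ((card_filter_le _ _).trans (card_filter_le _ _)).trans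
                (card_filter_le _ _)
          _ ≤ ε / 5 := by
              have h6 : (k : ℝ) ^ (1 + κ) = k * (k : ℝ) ^ κ := by
                rw [Real.rpow_add hk0, Real.rpow_one]
              have h7 : 1 ≤ ε / 5 * (k : ℝ) ^ κ := by
                rw [div_le_iff₀ (by positivity)] at hτk
                linarith
              rw [h6, mul_one_div, div_le_iff₀ (by positivity)]
              nlinarith
      linarith
    have h7 := h1 n hn hs
    calc (jac n : ℝ) ≤ C1 * (k : ℝ) ^ (1 + δ) := h7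
      _ ≤ (C1 + C3) * (k : ℝ) ^ (1 + δ) :=
          mul_le_mul_of_nonneg_right (by linarith) (by positivity)

end

end Vale.Agent.P013.MP
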