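import Vale.Agent.P003.FL

/-!
# P013: sieving an interval by an arbitrary finite set of small primes
-/

namespace Vale.Agent.P013.MP

open Finset
open Vale.Agent.P003 Vale.Agent.P003.FLaux

noncomputable section

/-- local densities of the set `S` -/
def g (S : Finset ℕ) (p : ℕ) : ℝ := if p ∈ S then 1 / (p : ℝ) else 0

/-- indicator of `p ∈ S` and `p ∣ x` -/
def zi (S : Finset ℕ) (x : ℤ) (p : ℕ) : ℝ := if p ∈ S ∧ (p : ℤ) ∣ x then 1 else 0

theorem zi_bounds (S : Finset ℕ) (x : ℤ) (p : ℕ) : 0 ≤ zi S x p ∧ zi S x p ≤ 1 := by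
  unfold zi
  split_ifs <;> norm_num

theorem g_nonneg (S : Finset ℕ) (p : ℕ) : 0 ≤ g S p := by
  unfold g
  split_ifs
  · positivity
  · exact le_rfl

theorem g_le (S : Finset ℕ) (p : ℕ) : g S p ≤ 1 / (p : ℝ) := by
  unfold g
  split_ifs
  · exact le_rfl
  · positivity

theorem g_le_half (S : Finset ℕ) (y p : ℕ) (hp : p ∈ Nat.primesLE y) : g S p ≤ 1 / 2 := by
  have h2 : (2 : ℝ) ≤ p := by exact_mod_cast (Nat.mem_primesLE.1 hp).2.two_le
  exact (g_le S p).trans (one_div_le_one_div_of_le (by norm_num) h2)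

theorem g_bounds (S : Finset ℕ) (y p : ℕ) (hp : p ∈ Nat.primesLE y) : 0 ≤ g S p ∧ g S p ≤ 1 :=
  ⟨g_nonneg S p, (g_le_half S y p hp).trans (by norm_num)⟩

theorem prod_zi (S : Finset ℕ) (x : ℤ) (y : ℕ) (D : Finset ℕ) (hD : D ⊆ Nat.primesLE y) :
    ∏ p ∈ D, zi S x p = if D ⊆ S ∧ ((∏ p ∈ D, p : ℕ) : ℤ) ∣ x then 1 else 0 := by
  split_ifs with h
  · refine prod_eq_one fun p hp => ?_
    unfold zi
    rw [if_pos]
    refine ⟨h.1 hp, ?_⟩
    exact (Int.natCast_dvd_natCast.2 (dvd_prod_of_mem (fun p : ℕ => p) hp)).trans h.2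
  · have : ∃ p ∈ D, ¬ (p ∈ S ∧ (p : ℤ) ∣ x) := by
      by_contra hc
      push Not at hc
      refine h ⟨fun p hp => (hc p hp).1, ?_⟩
      rw [Int.natCast_dvd]
      refine prod_primes_dvd _ (fun p hp => ((Nat.mem_primesLE.1 (hD hp)).2).prime) ?_
      intro p hp
      exact Int.natCast_dvd.1 (hc p hp).2
    obtain ⟨p, hp, hne⟩ := this
    refine prod_eq_zero hp ?_
    unfold zi
    rw [if_neg hne]

theorem prod_g (S D : Finset ℕ) :
    ∏ p ∈ D, g S p = if D ⊆ S then 1 / ((∏ p ∈ D, p : ℕ) : ℝ) else 0 := by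
  split_ifs with h
  · have : ∀ p ∈ D, g S p = (p : ℝ)⁻¹ := fun p hp => by
      unfold g
      rw [if_pos (h hp), one_div]
    rw [prod_congr rfl this, prod_inv_distrib, one_div]
    push_cast
    rfl
  · rw [Finset.not_subset] at h
    obtain ⟨p, hp, hne⟩ := h
    refine prod_eq_zero hp ?_
    unfold g
    rw [if_neg hne]

/-- integers of the interval divisible by `d` -/
theorem card_dvd (a : ℤ) (L d : ℕ) (hd : 0 < d) :
    |(((Ico a (a + L)).filter (fun x => (d : ℤ) ∣ x)).card : ℝ) - L / d| ≤ 1 := by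
  have hd' : (0 : ℤ) < d := by exact_mod_cast hd
  have h := Int.Ico_filter_dvd_card a (a + L) hd'
  have hq : (0 : ℚ) < (d : ℤ) := by exact_mod_cast hd
  have h1 := Int.ceil_lt_add_one (((a + L : ℤ) : ℚ) / ((d : ℤ) : ℚ))
  have h2 := Int.le_ceil (((a + L : ℤ) : ℚ) / ((d : ℤ) : ℚ))
  have h3 := Int.ceil_lt_add_one ((a : ℚ) / ((d : ℤ) : ℚ))
  have h4 := Int.le_ceil ((a : ℚ) / ((d : ℤ) : ℚ))
  have h5 : ((a + L : ℤ) : ℚ) / ((d : ℤ) : ℚ) = (a : ℚ) / ((d : ℤ) : ℚ) + (L : ℚ) / d := by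
    push_cast
    rw [add_div]
  have h6 : (0 : ℚ) ≤ (L : ℚ) / d := by positivity
  have h7 : ((((Ico a (a + L)).filter (fun x => (d : ℤ) ∣ x)).card : ℤ) : ℚ) =
      max ((⌈((a + L : ℤ) : ℚ) / ((d : ℤ) : ℚ)⌉ - ⌈(a : ℚ) / ((d : ℤ) : ℚ)⌉ : ℤ) : ℚ) 0 := by
    rw [h]
    push_cast
    rfl
  have h8 : |(((Ico a (a + L)).filter (fun x => (d : ℤ) ∣ x)).card : ℚ) - L / d| ≤ 1 := by
    have h9 : (((Ico a (a + L)).filter (fun x => (d : ℤ) ∣ x)).card : ℚ) =
        ((((Ico a (a + L)).filter (fun x => (d : ℤ) ∣ x)).card : ℤ) : ℚ) := by push_cast; rfl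
    rw [h9, h7, abs_le]
    rw [h5] at h1 h2
    rw [h5]
    push_cast
    constructor
    · have := le_max_left ((⌈(a : ℚ) / ((d : ℤ) : ℚ) + (L : ℚ) / d⌉ : ℚ) -
        (⌈(a : ℚ) / ((d : ℤ) : ℚ)⌉ : ℚ)) 0
      push_cast at this h1 h2 h3 h4 ⊢
      linarith
    · rw [sub_le_iff_le_add]
      refine max_le ?_ ?_
      · push_cast at h1 h2 h3 h4 ⊢
        linarith
      · linarith
  have h10 : ((|(((Ico a (a + L)).filter (fun x => (d : ℤ) ∣ x)).card : ℚ) - L / d| : ℚ) : ℝ) ≤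
      ((1 : ℚ) : ℝ) := by exact_mod_cast h8
  push_cast at h10
  exact h10

/-- the main counting lemma for a combination of divisibility indicators -/
theorem comb (S : Finset ℕ) (a : ℤ) (L y q : ℕ) (hq : 0 < q)
    (hqy : ∀ p ∈ Nat.primesLE y, Nat.Coprime q p) (w : Finset ℕ → ℝ) (M : ℝ) (hM : 0 ≤ M)
    (hw : ∀ D ⊆ Nat.primesLE y, |w D| ≤ 1)
    (hwM : ∀ D ⊆ Nat.primesLE y, w D ≠ 0 → ((∏ p ∈ D, p : ℕ) : ℝ) ≤ M) :
    |∑ x ∈ (Ico a (a + L)).filter (fun x => (q : ℤ) ∣ x),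
        (∑ D ∈ (Nat.primesLE y).powerset, w D * ∏ p ∈ D, zi S x p) -
      (L / q : ℝ) * ∑ D ∈ (Nat.primesLE y).powerset, w D * ∏ p ∈ D, g S p| ≤ M := by
  classical
  have hre : ∑ x ∈ (Ico a (a + L)).filter (fun x => (q : ℤ) ∣ x),
        (∑ D ∈ (Nat.primesLE y).powerset, w D * ∏ p ∈ D, zi S x p) -
      (L / q : ℝ) * ∑ D ∈ (Nat.primesLE y).powerset, w D * ∏ p ∈ D, g S p =
      ∑ D ∈ (Nat.primesLE y).powerset, w D *
        (∑ x ∈ (Ico a (a + L)).filter (fun x => (q : ℤ) ∣ x), ∏ p ∈ D, zi S x p -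
        (L / q : ℝ) * ∏ p ∈ D, g S p) := by
    simp only [mul_sub, Finset.sum_sub_distrib, Finset.mul_sum]
    congr 1
    · rw [Finset.sum_comm]
    · refine Finset.sum_congr rfl (fun D _ => by ring)
  rw [hre]
  set W := (Nat.primesLE y).powerset.filter (fun D => w D ≠ 0) with hS
  have hsub : ∑ D ∈ (Nat.primesLE y).powerset, w D *
        (∑ x ∈ (Ico a (a + L)).filter (fun x => (q : ℤ) ∣ x), ∏ p ∈ D, zi S x p -
        (L / q : ℝ) * ∏ p ∈ D, g S p) =
      ∑ D ∈ W, w D *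
        (∑ x ∈ (Ico a (a + L)).filter (fun x => (q : ℤ) ∣ x), ∏ p ∈ D, zi S x p -
        (L / q : ℝ) * ∏ p ∈ D, g S p) := by
    rw [hS, Finset.sum_filter]
    refine Finset.sum_congr rfl (fun D _ => ?_)
    by_cases h : w D ≠ 0
    · rw [if_pos h]
    · rw [if_neg h]; push Not at h; rw [h]; ring
  rw [hsub]
  have hcard : (W.card : ℝ) ≤ M := by
    have hinj : W.card ≤ (Icc 1 ⌊M⌋₊).card := by
      apply Finset.card_le_card_of_injOn (fun D => ∏ p ∈ D, p)
      · intro D hD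
        rw [hS, Finset.coe_filter] at hD
        obtain ⟨hD1, hD2⟩ := hD
        rw [Finset.mem_powerset] at hD1
        rw [Finset.coe_Icc]
        refine ⟨?_, Nat.le_floor (hwM D hD1 hD2)⟩
        exact Nat.one_le_iff_ne_zero.2 (Finset.prod_pos (fun p hp =>
          ((Nat.mem_primesLE.1 (hD1 hp)).2).pos)).ne'
      · intro D hD D' hD' h
        rw [hS, Finset.coe_filter] at hD hD'
        have hD1 := Finset.mem_powerset.1 hD.1
        have hD2 := Finset.mem_powerset.1 hD'.1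
        have e1 := Nat.primeFactors_prod (s := D) (fun p hp => (Nat.mem_primesLE.1 (hD1 hp)).2)
        have e2 := Nat.primeFactors_prod (s := D') (fun p hp => (Nat.mem_primesLE.1 (hD2 hp)).2)
        simp only at h
        rw [← e1, ← e2, h]
    calc (W.card : ℝ) ≤ ((Icc 1 ⌊M⌋₊).card : ℝ) := by exact_mod_cast hinj
      _ = (⌊M⌋₊ : ℝ) := by simp
      _ ≤ M := Nat.floor_le hM
  refine (Finset.abs_sum_le_sum_abs _ _).trans ?_
  calc ∑ D ∈ W, |w D *
        (∑ x ∈ (Ico a (a + L)).filter (fun x => (q : ℤ) ∣ x), ∏ p ∈ D, zi S x p -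
        (L / q : ℝ) * ∏ p ∈ D, g S p)| ≤ ∑ D ∈ W, (1 : ℝ) := by
        refine Finset.sum_le_sum (fun D hD => ?_)
        rw [hS, Finset.mem_filter, Finset.mem_powerset] at hD
        rw [abs_mul]
        have h2 := hw D hD.1
        have h1 : |∑ x ∈ (Ico a (a + L)).filter (fun x => (q : ℤ) ∣ x), ∏ p ∈ D, zi S x p -
            (L / q : ℝ) * ∏ p ∈ D, g S p| ≤ 1 := by
          rw [prod_g, sum_congr rfl fun x _ => prod_zi S x y D hD.1]
          by_cases hDS : D ⊆ S
          · rw [if_pos hDS]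
            have hcop : Nat.Coprime q (∏ p ∈ D, p) :=
              Nat.Coprime.prod_right fun p hp => hqy p (hD.1 hp)
            have hpos : 0 < ∏ p ∈ D, p :=
              Finset.prod_pos (fun p hp => ((Nat.mem_primesLE.1 (hD.1 hp)).2).pos)
            have e1 : ∑ x ∈ (Ico a (a + L)).filter (fun x => (q : ℤ) ∣ x),
                (if D ⊆ S ∧ ((∏ p ∈ D, p : ℕ) : ℤ) ∣ x then (1 : ℝ) else 0) =
                (((Ico a (a + L)).filter
                  (fun x => ((q * ∏ p ∈ D, p : ℕ) : ℤ) ∣ x)).card : ℝ) := by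
              rw [← sum_filter, sum_const, nsmul_eq_mul, mul_one, filter_filter]
              congr 2
              ext x
              rw [mem_filter, mem_filter]
              refine and_congr_right fun _ => ?_
              constructor
              · rintro ⟨h3, _, h4⟩
                rw [Int.natCast_dvd] at h3 h4 ⊢
                exact hcop.mul_dvd_of_dvd_of_dvd h3 h4
              · intro h3
                push_cast at h3 ⊢
                exact ⟨(dvd_mul_right _ _).trans h3, hDS, (dvd_mul_left _ _).trans h3⟩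
            rw [e1]
            have h5 := card_dvd a L (q * ∏ p ∈ D, p) (Nat.mul_pos hq hpos)
            have h6 : (L / q : ℝ) * (1 / ((∏ p ∈ D, p : ℕ) : ℝ)) =
                L / ((q * ∏ p ∈ D, p : ℕ) : ℝ) := by
              rw [div_mul_div_comm, mul_one]
              push_cast
              rfl
            rw [h6]
            exact h5
          · have e1 : ∀ x ∈ (Ico a (a + L)).filter (fun x => (q : ℤ) ∣ x),
                (if D ⊆ S ∧ ((∏ p ∈ D, p : ℕ) : ℤ) ∣ x then (1 : ℝ) else 0) = 0 := fun x _ => by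
              rw [if_neg (fun h => hDS h.1)]
            rw [if_neg hDS, sum_congr rfl e1]
            simp
        calc |w D| * |∑ x ∈ (Ico a (a + L)).filter (fun x => (q : ℤ) ∣ x), ∏ p ∈ D, zi S x p -
            (L / q : ℝ) * ∏ p ∈ D, g S p| ≤ 1 * 1 :=
              mul_le_mul h2 h1 (abs_nonneg _) zero_le_one
          _ = 1 := one_mul _
    _ = (W.card : ℝ) := by rw [Finset.sum_const, nsmul_eq_mul, mul_one]
    _ ≤ M := hcard

end

end Vale.Agent.P013.MP
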