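import Vale.Agent.P013.Asm
import Vale.Agent.P013.FLM
import Vale.Agent.P013.Main
import Vale.Agent.P013.MertW

/-! P013: the finitely many small values of `ω(n)`. -/

namespace Vale.Agent.P013

open Finset
open Vale.Agent.P003

theorem V_ge (y : ℕ) (hy : 1 ≤ y) : 1 / (y:ℝ) ≤ V y :=
  (Vs_eq_V y) ▸ MP.Vs_ge (Nat.primesLE y) y hy

theorem jac_eq (n : ℕ) : jac n = MP.jac n := by
  unfold jac MP.jac
  congr 1
  ext m
  simp only [Set.mem_ofPred_eq, Good]
  constructor
  · rintro ⟨h1, h2⟩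
    refine ⟨h1, fun a => ?_⟩
    obtain ⟨i, hi, hc⟩ := h2 a
    exact ⟨a + i, by omega, by omega, hc⟩
  · rintro ⟨h1, h2⟩
    refine ⟨h1, fun a => ?_⟩
    obtain ⟨x, hx1, hx2, hc⟩ := h2 a
    refine ⟨(x - a).toNat, by omega, ?_⟩
    have : a + (((x - a).toNat : ℕ) : ℤ) = x := by omega
    rw [this]
    exact hc

theorem jac_small : ∃ F : ℕ → ℕ, ∀ n : ℕ, 1 ≤ n → jac n ≤ F n.primeFactors.card := by
  obtain ⟨C, K, hC, _, h⟩ := MP.partA (1 / 2) (by norm_num)
  refine ⟨fun k => ⌊C * ((k : ℝ) + 1) * (((2 * k + 1 : ℕ)) : ℝ) ^ K⌋₊, fun n hn => ?_⟩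
  rw [jac_eq]
  apply Nat.le_floor
  refine h n (2 * n.primeFactors.card + 1) (by omega) (by omega) ?_
  have h1 : ∀ p ∈ n.primeFactors.filter (fun p => 2 * n.primeFactors.card + 1 < p),
      1 / (p : ℝ) ≤ 1 / (2 * ((n.primeFactors.card : ℝ)) + 1) := by
    intro p hp
    rw [Finset.mem_filter] at hp
    apply one_div_le_one_div_of_le (by positivity)
    exact_mod_cast hp.2.le
  refine (Finset.sum_le_sum h1).trans ?_
  rw [Finset.sum_const, nsmul_eq_mul]
  have h2 : ((n.primeFactors.filter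
      (fun p => 2 * n.primeFactors.card + 1 < p)).card : ℝ) ≤ n.primeFactors.card := by
    exact_mod_cast Finset.card_le_card (Finset.filter_subset _ _)
  rw [mul_one_div, div_le_iff₀ (by positivity)]
  linarith

end Vale.Agent.P013
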